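import Mathlib
import Vale.Agent.Results.P229.KillingFieldMetric

/-!
# Proof of the local smooth isometric realization for metrics with a homothetic field
(the case of a nonzero exponent; used by the hand-in `P229.SpiralMetric`)

A smooth metric `exp (2 l y) (E(x) dx² + 2 F(x) dx dy + G(x) dy²)` (for which the translation
field in `y` is homothetic; for `l = 0` it is a Killing field) is locally `C^∞`-realizable in
Euclidean three-space at every point where it is positive definite: a neighbourhood is realized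
as a piece of a spiral surface, the profile of which solves a smooth scalar differential equation.
No assumption is made on the Gaussian curvature.
-/

namespace Vale.Agent.Helper26.P229Spiral

open scoped ContDiff
open MeasureTheory
open Vale.Agent.Results.P229.KillingFieldMetric (primitive_smooth fderiv_dir_fst fderiv_dir_snd)

theorem quad_root (A B C : ℝ) (hA : 0 < A) (hd : 0 ≤ B ^ 2 - 4 * A * C) :
    A * ((-B + Real.sqrt (B ^ 2 - 4 * A * C)) / (2 * A)) ^ 2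
      + B * ((-B + Real.sqrt (B ^ 2 - 4 * A * C)) / (2 * A)) + C = 0 := by
  have hs : Real.sqrt (B ^ 2 - 4 * A * C) ^ 2 = B ^ 2 - 4 * A * C := Real.sq_sqrt hd
  obtain ⟨s, hs'⟩ : ∃ s : ℝ, s = Real.sqrt (B ^ 2 - 4 * A * C) := ⟨_, rfl⟩
  rw [← hs'] at hs ⊢
  have hA' : A ≠ 0 := hA.ne'
  field_simp
  linear_combination hs

theorem smooth_of_ode (Ψ : ℝ × ℝ → ℝ) (W : Set (ℝ × ℝ)) (hΨ : ContDiffOn ℝ ∞ Ψ W)
    (J : Set ℝ) (hJ : IsOpen J) (ψ : ℝ → ℝ) (hmem : ∀ t ∈ J, (t, ψ t) ∈ W)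
    (hder : ∀ t ∈ J, HasDerivAt ψ (Ψ (t, ψ t)) t) : ContDiffOn ℝ ∞ ψ J := by
  have hn : ∀ n : ℕ, ContDiffOn ℝ n ψ J := by
    intro n
    induction n with
    | zero =>
      exact contDiffOn_zero.mpr (fun t ht => (hder t ht).continuousAt.continuousWithinAt)
    | succ n ih =>
      have hcast : ((n + 1 : ℕ) : WithTop ℕ∞) = (n : WithTop ℕ∞) + 1 := by push_cast; rfl
      rw [hcast, contDiffOn_succ_iff_deriv_of_isOpen hJ]
      refine ⟨fun t ht => (hder t ht).differentiableAt.differentiableWithinAt, ?_, ?_⟩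
      · intro h; exact absurd h (by simp)
      · have hcomp : ContDiffOn ℝ n (fun t => Ψ (t, ψ t)) J :=
          (hΨ.of_le (by exact_mod_cast le_top)).comp (contDiffOn_id.prodMk ih) hmem
        exact hcomp.congr (fun t ht => (hder t ht).deriv)
  exact contDiffOn_infty.mpr hn

/-- radius of the profile -/
noncomputable def rho (κ u k : ℝ) : ℝ := u * k * κ⁻¹
/-- height of the profile -/
noncomputable def hh (l u s : ℝ) : ℝ := u * s * l⁻¹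
noncomputable def a1 (κ v k : ℝ) : ℝ := v * k * κ⁻¹
noncomputable def b1 (κ u s : ℝ) : ℝ := -(u * s) * κ⁻¹
noncomputable def a2 (l v s : ℝ) : ℝ := v * s * l⁻¹
noncomputable def b2 (l u k : ℝ) : ℝ := u * k * l⁻¹
noncomputable def t0 (l κ f u v s k : ℝ) : ℝ := f - l * (rho κ u k * a1 κ v k + hh l u s * a2 l v s)
noncomputable def t1 (l κ u s k : ℝ) : ℝ := -(l * (rho κ u k * b1 κ u s + hh l u s * b2 l u k))
noncomputable def nn (c κ u k : ℝ) : ℝ := c ^ 2 * (rho κ u k) ^ 2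
noncomputable def cA (l c κ u s k : ℝ) : ℝ :=
  (b1 κ u s) ^ 2 + (b2 l u k) ^ 2 + (t1 l κ u s k) ^ 2 / nn c κ u k
noncomputable def cB (l c κ f u v s k : ℝ) : ℝ :=
  2 * (a1 κ v k * b1 κ u s + a2 l v s * b2 l u k + t0 l κ f u v s k * t1 l κ u s k / nn c κ u k)
noncomputable def cC (l c κ e f u v s k : ℝ) : ℝ :=
  (a1 κ v k) ^ 2 + (a2 l v s) ^ 2 + (t0 l κ f u v s k) ^ 2 / nn c κ u k - e
noncomputable def psiF (l c κ e f u v s k : ℝ) : ℝ :=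
  (-(cB l c κ f u v s k) + Real.sqrt ((cB l c κ f u v s k) ^ 2
    - 4 * cA l c κ u s k * cC l c κ e f u v s k)) / (2 * cA l c κ u s k)

theorem cA_pos (l c κ u s k : ℝ) (hl : l ≠ 0) (hu : 0 < u) (hk : 0 < k) :
    0 < cA l c κ u s k := by
  have h1 : 0 < (b2 l u k) ^ 2 := by
    unfold b2
    have : u * k * l⁻¹ ≠ 0 := mul_ne_zero (mul_pos hu hk).ne' (inv_ne_zero hl)
    positivity
  have h2 : 0 ≤ (t1 l κ u s k) ^ 2 / nn c κ u k := by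
    apply div_nonneg (sq_nonneg _)
    unfold nn
    positivity
  unfold cA
  have h3 : 0 ≤ (b1 κ u s) ^ 2 := sq_nonneg _
  linarith

theorem cB_zero (l c κ f u v : ℝ) : cB l c κ f u v 0 1 = 0 := by
  simp [cB, a1, b1, a2, b2, t1, rho, hh]

theorem cC_zero (l c κ e f u v : ℝ) (hc : 0 < c) (hκ : 0 < κ) (hu : 0 < u)
    (hκsq : κ ^ 2 = l ^ 2 + c ^ 2) (hc2 : c ^ 2 * (e * u ^ 2 - f ^ 2) = (l * f - u * v) ^ 2 + 1) :
    cC l c κ e f u v 0 1 < 0 := by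
  have hK : l ^ 2 + c ^ 2 ≠ 0 := by positivity
  have e1 : cC l c κ e f u v 0 1 = v ^ 2 / (l ^ 2 + c ^ 2)
      + (f - l * u * v / (l ^ 2 + c ^ 2)) ^ 2 * (l ^ 2 + c ^ 2) / (c ^ 2 * u ^ 2) - e := by
    rw [← hκsq]
    simp only [cC, a1, a2, t0, nn, rho, hh, mul_one, mul_zero, zero_mul]
    field_simp
    ring
  have e2 : v ^ 2 / (l ^ 2 + c ^ 2)
      + (f - l * u * v / (l ^ 2 + c ^ 2)) ^ 2 * (l ^ 2 + c ^ 2) / (c ^ 2 * u ^ 2) - e
      = ((l * f - u * v) ^ 2 - c ^ 2 * (e * u ^ 2 - f ^ 2)) / (c ^ 2 * u ^ 2) := by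
    field_simp
    ring
  rw [e1, e2, hc2]
  apply div_neg_of_neg_of_pos (by linarith) (by positivity)

theorem result_ne (l : ℝ) (hl : l ≠ 0) (E F G : ℝ → ℝ) (I : Set ℝ) (hI : IsOpen I)
    (hE : ContDiffOn ℝ ∞ E I) (hF : ContDiffOn ℝ ∞ F I) (hG : ContDiffOn ℝ ∞ G I)
    (x₀ y₀ : ℝ) (hx₀ : x₀ ∈ I) (hE0 : 0 < E x₀) (hdet : 0 < E x₀ * G x₀ - F x₀ ^ 2) :
    ∃ U : Set (ℝ × ℝ), IsOpen U ∧ (x₀, y₀) ∈ U ∧ (∀ p ∈ U, p.1 ∈ I) ∧
      ∃ X Y Z : ℝ × ℝ → ℝ, ContDiffOn ℝ ∞ X U ∧ ContDiffOn ℝ ∞ Y U ∧ ContDiffOn ℝ ∞ Z U ∧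
        ∀ p ∈ U,
          (fderiv ℝ X p (1, 0)) ^ 2 + (fderiv ℝ Y p (1, 0)) ^ 2 + (fderiv ℝ Z p (1, 0)) ^ 2
              = Real.exp (2 * l * p.2) * E p.1 ∧
          fderiv ℝ X p (1, 0) * fderiv ℝ X p (0, 1) + fderiv ℝ Y p (1, 0) * fderiv ℝ Y p (0, 1)
              + fderiv ℝ Z p (1, 0) * fderiv ℝ Z p (0, 1) = Real.exp (2 * l * p.2) * F p.1 ∧
          (fderiv ℝ X p (0, 1)) ^ 2 + (fderiv ℝ Y p (0, 1)) ^ 2 + (fderiv ℝ Z p (0, 1)) ^ 2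
              = Real.exp (2 * l * p.2) * G p.1 := by
  obtain ⟨G', hG'⟩ : ∃ G' : ℝ → ℝ, G' = deriv G := ⟨_, rfl⟩
  have hG'smooth : ContDiffOn ℝ ∞ G' I := by
    rw [hG']; exact hG.deriv_of_isOpen hI le_rfl
  have hG0 : 0 < G x₀ := by
    by_contra hneg
    rw [not_lt] at hneg
    nlinarith [sq_nonneg (F x₀), mul_nonpos_of_nonneg_of_nonpos hE0.le hneg]
  obtain ⟨D, hD⟩ : ∃ D : ℝ, D = E x₀ * G x₀ - F x₀ ^ 2 := ⟨_, rfl⟩
  have hDpos : 0 < D := by rw [hD]; exact hdet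
  have hMpos : 0 < ((l * F x₀ - G' x₀ / 2) ^ 2 + 1) / D := div_pos (by positivity) hDpos
  obtain ⟨c, hc⟩ : ∃ c : ℝ, c = Real.sqrt (((l * F x₀ - G' x₀ / 2) ^ 2 + 1) / D) := ⟨_, rfl⟩
  have hcpos : 0 < c := by rw [hc]; exact Real.sqrt_pos.mpr hMpos
  have hcsq : c ^ 2 * D = (l * F x₀ - G' x₀ / 2) ^ 2 + 1 := by
    rw [hc, Real.sq_sqrt hMpos.le]
    field_simp
  obtain ⟨κ, hκ⟩ : ∃ κ : ℝ, κ = Real.sqrt (l ^ 2 + c ^ 2) := ⟨_, rfl⟩
  have hκpos : 0 < κ := by rw [hκ]; exact Real.sqrt_pos.mpr (by positivity)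
  have hκsq : κ ^ 2 = l ^ 2 + c ^ 2 := by rw [hκ]; exact Real.sq_sqrt (by positivity)
  -- the domain of the coefficient functions
  obtain ⟨W₀, hW₀⟩ : ∃ W₀ : Set (ℝ × ℝ),
      W₀ = Prod.fst ⁻¹' (I ∩ G ⁻¹' Set.Ioi 0) ∩ (fun q : ℝ × ℝ => Real.cos q.2) ⁻¹' Set.Ioi 0 :=
    ⟨_, rfl⟩
  have hW₀open : IsOpen W₀ := by
    have h1 : IsOpen (I ∩ G ⁻¹' Set.Ioi 0) := hG.continuousOn.isOpen_inter_preimage hI isOpen_Ioi
    rw [hW₀]
    exact (h1.preimage continuous_fst).inter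
      (isOpen_Ioi.preimage (Real.continuous_cos.comp continuous_snd))
  have hW₀I : ∀ q ∈ W₀, q.1 ∈ I := fun q hq => by rw [hW₀] at hq; exact hq.1.1
  have hW₀G : ∀ q ∈ W₀, 0 < G q.1 := fun q hq => by rw [hW₀] at hq; exact hq.1.2
  have hW₀k : ∀ q ∈ W₀, 0 < Real.cos q.2 := fun q hq => by rw [hW₀] at hq; exact hq.2
  have hfstW : ContDiffOn ℝ ∞ (fun q : ℝ × ℝ => q.1) W₀ := contDiff_fst.contDiffOn
  have hmapsI : Set.MapsTo (fun q : ℝ × ℝ => q.1) W₀ I := fun q hq => hW₀I q hq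
  obtain ⟨eq, heq⟩ : ∃ eq : ℝ × ℝ → ℝ, eq = fun q => E q.1 := ⟨_, rfl⟩
  obtain ⟨fq, hfq⟩ : ∃ fq : ℝ × ℝ → ℝ, fq = fun q => F q.1 := ⟨_, rfl⟩
  obtain ⟨uq, huq⟩ : ∃ uq : ℝ × ℝ → ℝ, uq = fun q => Real.sqrt (G q.1) := ⟨_, rfl⟩
  obtain ⟨vq, hvq⟩ : ∃ vq : ℝ × ℝ → ℝ, vq = fun q => G' q.1 / (2 * Real.sqrt (G q.1)) :=
    ⟨_, rfl⟩
  obtain ⟨sq, hsq⟩ : ∃ sq : ℝ × ℝ → ℝ, sq = fun q => Real.sin q.2 := ⟨_, rfl⟩
  obtain ⟨kq, hkq⟩ : ∃ kq : ℝ × ℝ → ℝ, kq = fun q => Real.cos q.2 := ⟨_, rfl⟩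
  have heqs : ContDiffOn ℝ ∞ eq W₀ := by rw [heq]; exact hE.comp hfstW hmapsI
  have hfqs : ContDiffOn ℝ ∞ fq W₀ := by rw [hfq]; exact hF.comp hfstW hmapsI
  have hgqs : ContDiffOn ℝ ∞ (fun q : ℝ × ℝ => G q.1) W₀ := hG.comp hfstW hmapsI
  have hg'qs : ContDiffOn ℝ ∞ (fun q : ℝ × ℝ => G' q.1) W₀ := hG'smooth.comp hfstW hmapsI
  have huqs : ContDiffOn ℝ ∞ uq W₀ := by
    rw [huq]; exact hgqs.sqrt (fun q hq => (hW₀G q hq).ne')
  have huqpos : ∀ q ∈ W₀, 0 < uq q := fun q hq => by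
    rw [huq]; exact Real.sqrt_pos.mpr (hW₀G q hq)
  have hvqs : ContDiffOn ℝ ∞ vq W₀ := by
    rw [hvq]
    exact hg'qs.div (contDiffOn_const.mul (hgqs.sqrt (fun q hq => (hW₀G q hq).ne')))
      (fun q hq => (mul_pos two_pos (Real.sqrt_pos.mpr (hW₀G q hq))).ne')
  have hsqs : ContDiffOn ℝ ∞ sq W₀ := by
    rw [hsq]; exact (Real.contDiff_sin.comp contDiff_snd).contDiffOn
  have hkqs : ContDiffOn ℝ ∞ kq W₀ := by
    rw [hkq]; exact (Real.contDiff_cos.comp contDiff_snd).contDiffOn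
  have hkqpos : ∀ q ∈ W₀, 0 < kq q := fun q hq => by rw [hkq]; exact hW₀k q hq
  -- the coefficients of the quadratic
  have hNne : ∀ q ∈ W₀, c ^ 2 * (uq q * kq q * κ⁻¹) ^ 2 ≠ 0 := fun q hq => by
    have h1 := huqpos q hq
    have h2 := hkqpos q hq
    positivity
  obtain ⟨Aq, hAq⟩ : ∃ Aq : ℝ × ℝ → ℝ, Aq = fun q => cA l c κ (uq q) (sq q) (kq q) := ⟨_, rfl⟩
  obtain ⟨Bq, hBq⟩ : ∃ Bq : ℝ × ℝ → ℝ,
      Bq = fun q => cB l c κ (fq q) (uq q) (vq q) (sq q) (kq q) := ⟨_, rfl⟩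
  obtain ⟨Cq, hCq⟩ : ∃ Cq : ℝ × ℝ → ℝ,
      Cq = fun q => cC l c κ (eq q) (fq q) (uq q) (vq q) (sq q) (kq q) := ⟨_, rfl⟩
  have hAqs : ContDiffOn ℝ ∞ Aq W₀ := by
    rw [hAq]
    simp only [cA, b1, b2, t1, nn, rho, hh]
    fun_prop (disch := assumption)
  have hBqs : ContDiffOn ℝ ∞ Bq W₀ := by
    rw [hBq]
    simp only [cB, a1, a2, b1, b2, t0, t1, nn, rho, hh]
    fun_prop (disch := assumption)
  have hCqs : ContDiffOn ℝ ∞ Cq W₀ := by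
    rw [hCq]
    simp only [cC, a1, a2, t0, nn, rho, hh]
    fun_prop (disch := assumption)
  have hAqpos : ∀ q ∈ W₀, 0 < Aq q := fun q hq => by
    rw [hAq]; exact cA_pos l c κ _ _ _ hl (huqpos q hq) (hkqpos q hq)
  obtain ⟨Dq, hDq⟩ : ∃ Dq : ℝ × ℝ → ℝ, Dq = fun q => Bq q ^ 2 - 4 * Aq q * Cq q := ⟨_, rfl⟩
  have hDqs : ContDiffOn ℝ ∞ Dq W₀ := by
    rw [hDq]; fun_prop
  obtain ⟨W', hW'⟩ : ∃ W' : Set (ℝ × ℝ), W' = W₀ ∩ Dq ⁻¹' Set.Ioi 0 := ⟨_, rfl⟩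
  have hW'open : IsOpen W' := by
    rw [hW']; exact hDqs.continuousOn.isOpen_inter_preimage hW₀open isOpen_Ioi
  have hW'sub : ∀ q ∈ W', q ∈ W₀ := fun q hq => by rw [hW'] at hq; exact hq.1
  have hW'D : ∀ q ∈ W', 0 < Dq q := fun q hq => by rw [hW'] at hq; exact hq.2
  obtain ⟨Ψ, hΨ⟩ : ∃ Ψ : ℝ × ℝ → ℝ, Ψ = fun q => (-(Bq q) + Real.sqrt (Dq q)) / (2 * Aq q) :=
    ⟨_, rfl⟩
  have hΨs : ContDiffOn ℝ ∞ Ψ W' := by
    have hW'W₀ : W' ⊆ W₀ := fun q hq => hW'sub q hq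
    have h1 : ContDiffOn ℝ ∞ (fun q => Real.sqrt (Dq q)) W' :=
      (hDqs.mono hW'W₀).sqrt (fun q hq => (hW'D q hq).ne')
    have h2 : ContDiffOn ℝ ∞ (fun q => -(Bq q) + Real.sqrt (Dq q)) W' :=
      (hBqs.mono hW'W₀).neg.add h1
    have h3 : ContDiffOn ℝ ∞ (fun q => 2 * Aq q) W' := contDiffOn_const.mul (hAqs.mono hW'W₀)
    rw [hΨ]
    exact h2.div h3 (fun q hq => (mul_pos two_pos (hAqpos q (hW'sub q hq))).ne')
  -- the initial point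
  have hq₀W₀ : ((x₀, 0) : ℝ × ℝ) ∈ W₀ := by
    rw [hW₀]
    exact ⟨⟨hx₀, hG0⟩, by show 0 < Real.cos 0; rw [Real.cos_zero]; exact one_pos⟩
  have hq₀W : ((x₀, 0) : ℝ × ℝ) ∈ W' := by
    rw [hW']
    refine ⟨hq₀W₀, ?_⟩
    show 0 < Dq (x₀, 0)
    have hu0 : 0 < Real.sqrt (G x₀) := Real.sqrt_pos.mpr hG0
    have hu0sq : Real.sqrt (G x₀) ^ 2 = G x₀ := Real.sq_sqrt hG0.le
    have hB0 : Bq (x₀, 0) = 0 := by
      rw [hBq, hsq, hkq]
      show cB l c κ _ _ _ (Real.sin 0) (Real.cos 0) = 0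
      rw [Real.sin_zero, Real.cos_zero]
      exact cB_zero _ _ _ _ _ _
    have hC0 : Cq (x₀, 0) < 0 := by
      rw [hCq, hsq, hkq, heq, hfq, huq, hvq]
      show cC l c κ (E x₀) (F x₀) (Real.sqrt (G x₀)) (G' x₀ / (2 * Real.sqrt (G x₀)))
        (Real.sin 0) (Real.cos 0) < 0
      rw [Real.sin_zero, Real.cos_zero]
      apply cC_zero l c κ _ _ _ _ hcpos hκpos hu0 hκsq
      have huv : Real.sqrt (G x₀) * (G' x₀ / (2 * Real.sqrt (G x₀))) = G' x₀ / 2 := by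
        field_simp
      rw [huv, hu0sq, ← hD]
      exact hcsq
    have hA0 := hAqpos _ hq₀W₀
    rw [hDq]
    show 0 < Bq (x₀, 0) ^ 2 - 4 * Aq (x₀, 0) * Cq (x₀, 0)
    rw [hB0]
    nlinarith [mul_pos hA0 (neg_pos.mpr hC0)]
  -- the solution of the differential equation
  have hΨat : ContDiffAt ℝ 1 (fun q : ℝ × ℝ => ((1 : ℝ), Ψ q)) (x₀, 0) :=
    contDiffAt_const.prodMk ((hΨs.contDiffAt (hW'open.mem_nhds hq₀W)).of_le (by simp))
  obtain ⟨α, hα0, ε, hε, hαder⟩ :=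
    hΨat.exists_forall_mem_closedBall_exists_eq_forall_mem_Ioo_hasDerivAt₀ x₀
  have hα1 : ∀ t ∈ Set.Ioo (x₀ - ε) (x₀ + ε), HasDerivAt (fun t => (α t).1) 1 t := fun t ht =>
    (ContinuousLinearMap.fst ℝ ℝ ℝ).hasFDerivAt.comp_hasDerivAt t (hαder t ht)
  have hα2 : ∀ t ∈ Set.Ioo (x₀ - ε) (x₀ + ε), HasDerivAt (fun t => (α t).2) (Ψ (α t)) t :=
    fun t ht => (ContinuousLinearMap.snd ℝ ℝ ℝ).hasFDerivAt.comp_hasDerivAt t (hαder t ht)
  have hx₀J : x₀ ∈ Set.Ioo (x₀ - ε) (x₀ + ε) := ⟨by linarith, by linarith⟩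
  have hα1eq : ∀ t ∈ Set.Ioo (x₀ - ε) (x₀ + ε), (α t).1 = t := by
    intro t ht
    have hd : ∀ s ∈ Set.Ioo (x₀ - ε) (x₀ + ε), HasDerivAt (fun s => (α s).1 - s) 0 s := by
      intro s hs
      have h : HasDerivAt (fun s => (α s).1 - s) (1 - 1) s :=
        (hα1 s hs).sub (hasDerivAt_id' s)
      simpa using h
    have hconst := isOpen_Ioo.is_const_of_deriv_eq_zero isPreconnected_Ioo
      (fun s hs => (hd s hs).differentiableAt.differentiableWithinAt)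
      (fun s hs => (hd s hs).deriv) ht hx₀J
    have h0 : (α x₀).1 = x₀ := by rw [hα0]
    linarith
  obtain ⟨ψ, hψ⟩ : ∃ ψ : ℝ → ℝ, ψ = fun t => (α t).2 := ⟨_, rfl⟩
  have hψ0 : ψ x₀ = 0 := by rw [hψ]; show (α x₀).2 = 0; rw [hα0]
  have hψder : ∀ t ∈ Set.Ioo (x₀ - ε) (x₀ + ε), HasDerivAt ψ (Ψ (t, ψ t)) t := by
    intro t ht
    have h := hα2 t ht
    have e : α t = (t, (α t).2) := Prod.ext (hα1eq t ht) rfl
    rw [hψ]
    show HasDerivAt (fun t => (α t).2) (Ψ (t, (α t).2)) t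
    rw [← e]
    exact h
  have hγcont : ContinuousOn (fun t => ((t, ψ t) : ℝ × ℝ)) (Set.Ioo (x₀ - ε) (x₀ + ε)) :=
    continuousOn_id.prodMk (fun t ht => (hψder t ht).continuousAt.continuousWithinAt)
  have hV : IsOpen (Set.Ioo (x₀ - ε) (x₀ + ε) ∩ (fun t => ((t, ψ t) : ℝ × ℝ)) ⁻¹' W') :=
    hγcont.isOpen_inter_preimage isOpen_Ioo hW'open
  obtain ⟨δ, hδ, hball⟩ := Metric.isOpen_iff.mp hV x₀
    ⟨hx₀J, by show (x₀, ψ x₀) ∈ W'; rw [hψ0]; exact hq₀W⟩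
  have hJ : ∀ t ∈ Metric.ball x₀ δ, t ∈ Set.Ioo (x₀ - ε) (x₀ + ε) := fun t ht => (hball ht).1
  have hγW : ∀ t ∈ Metric.ball x₀ δ, (t, ψ t) ∈ W' := fun t ht => (hball ht).2
  have hψs : ContDiffOn ℝ ∞ ψ (Metric.ball x₀ δ) :=
    smooth_of_ode Ψ W' hΨs _ Metric.isOpen_ball ψ hγW (fun t ht => hψder t (hJ t ht))
  have hJI : ∀ t ∈ Metric.ball x₀ δ, t ∈ I := fun t ht => hW₀I _ (hW'sub _ (hγW t ht))
  have hGpos : ∀ t ∈ Metric.ball x₀ δ, 0 < G t := fun t ht => hW₀G _ (hW'sub _ (hγW t ht))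
  have hkpos : ∀ t ∈ Metric.ball x₀ δ, 0 < Real.cos (ψ t) :=
    fun t ht => hW₀k _ (hW'sub _ (hγW t ht))
  have hballI : Metric.ball x₀ δ ⊆ I := fun t ht => hJI t ht
  -- functions of one variable
  obtain ⟨uT, huT⟩ : ∃ uT : ℝ → ℝ, uT = fun t => Real.sqrt (G t) := ⟨_, rfl⟩
  obtain ⟨vT, hvT⟩ : ∃ vT : ℝ → ℝ, vT = fun t => G' t / (2 * Real.sqrt (G t)) := ⟨_, rfl⟩
  obtain ⟨sT, hsT⟩ : ∃ sT : ℝ → ℝ, sT = fun t => Real.sin (ψ t) := ⟨_, rfl⟩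
  obtain ⟨kT, hkT⟩ : ∃ kT : ℝ → ℝ, kT = fun t => Real.cos (ψ t) := ⟨_, rfl⟩
  obtain ⟨pT, hpT⟩ : ∃ pT : ℝ → ℝ, pT = fun t => Ψ (t, ψ t) := ⟨_, rfl⟩
  have hFs : ContDiffOn ℝ ∞ F (Metric.ball x₀ δ) := hF.mono hballI
  have huTs : ContDiffOn ℝ ∞ uT (Metric.ball x₀ δ) := by
    rw [huT]; exact (hG.mono hballI).sqrt (fun t ht => (hGpos t ht).ne')
  have hvTs : ContDiffOn ℝ ∞ vT (Metric.ball x₀ δ) := by
    rw [hvT]
    exact (hG'smooth.mono hballI).div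
      (contDiffOn_const.mul ((hG.mono hballI).sqrt (fun t ht => (hGpos t ht).ne')))
      (fun t ht => (mul_pos two_pos (Real.sqrt_pos.mpr (hGpos t ht))).ne')
  have hsTs : ContDiffOn ℝ ∞ sT (Metric.ball x₀ δ) := by
    rw [hsT]; exact Real.contDiff_sin.comp_contDiffOn hψs
  have hkTs : ContDiffOn ℝ ∞ kT (Metric.ball x₀ δ) := by
    rw [hkT]; exact Real.contDiff_cos.comp_contDiffOn hψs
  have hpTs : ContDiffOn ℝ ∞ pT (Metric.ball x₀ δ) := by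
    rw [hpT]; exact hΨs.comp (contDiffOn_id.prodMk hψs) (fun t ht => hγW t ht)
  have huTpos : ∀ t ∈ Metric.ball x₀ δ, 0 < uT t := fun t ht => by
    rw [huT]; exact Real.sqrt_pos.mpr (hGpos t ht)
  have hkTpos : ∀ t ∈ Metric.ball x₀ δ, 0 < kT t := fun t ht => by rw [hkT]; exact hkpos t ht
  have huTsq : ∀ t ∈ Metric.ball x₀ δ, uT t ^ 2 = G t := fun t ht => by
    rw [huT]; exact Real.sq_sqrt (hGpos t ht).le
  have hsk : ∀ t, sT t ^ 2 + kT t ^ 2 = 1 := fun t => by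
    rw [hsT, hkT]; exact Real.sin_sq_add_cos_sq _
  have huTder : ∀ t ∈ Metric.ball x₀ δ, HasDerivAt uT (vT t) t := by
    intro t ht
    have hGd : HasDerivAt G (G' t) t := by
      rw [hG']
      exact ((hG.differentiableOn (by simp)).differentiableAt (hI.mem_nhds (hJI t ht))).hasDerivAt
    rw [huT, hvT]
    exact hGd.sqrt (hGpos t ht).ne'
  have hsTder : ∀ t ∈ Metric.ball x₀ δ, HasDerivAt sT (kT t * pT t) t := by
    intro t ht
    rw [hsT, hkT, hpT]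
    exact (hψder t (hJ t ht)).sin
  have hkTder : ∀ t ∈ Metric.ball x₀ δ, HasDerivAt kT (-sT t * pT t) t := by
    intro t ht
    rw [hsT, hkT, hpT]
    exact (hψder t (hJ t ht)).cos
  -- the profile
  obtain ⟨ρT, hρT⟩ : ∃ ρT : ℝ → ℝ, ρT = fun t => rho κ (uT t) (kT t) := ⟨_, rfl⟩
  obtain ⟨hT, hhT⟩ : ∃ hT : ℝ → ℝ, hT = fun t => hh l (uT t) (sT t) := ⟨_, rfl⟩
  obtain ⟨ρd, hρd⟩ : ∃ ρd : ℝ → ℝ,
      ρd = fun t => a1 κ (vT t) (kT t) + b1 κ (uT t) (sT t) * pT t := ⟨_, rfl⟩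
  obtain ⟨hd', hhd⟩ : ∃ hd' : ℝ → ℝ,
      hd' = fun t => a2 l (vT t) (sT t) + b2 l (uT t) (kT t) * pT t := ⟨_, rfl⟩
  have hρTs : ContDiffOn ℝ ∞ ρT (Metric.ball x₀ δ) := by
    rw [hρT]; simp only [rho]; fun_prop
  have hhTs : ContDiffOn ℝ ∞ hT (Metric.ball x₀ δ) := by
    rw [hhT]; simp only [hh]; fun_prop
  have hρds : ContDiffOn ℝ ∞ ρd (Metric.ball x₀ δ) := by
    rw [hρd]; simp only [a1, b1]; fun_prop
  have hhds : ContDiffOn ℝ ∞ hd' (Metric.ball x₀ δ) := by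
    rw [hhd]; simp only [a2, b2]; fun_prop
  obtain ⟨TT, hTT⟩ : ∃ TT : ℝ → ℝ,
      TT = fun t => F t - l * (ρT t * ρd t + hT t * hd' t) := ⟨_, rfl⟩
  have hTTs : ContDiffOn ℝ ∞ TT (Metric.ball x₀ δ) := by
    rw [hTT]; fun_prop
  have hρTpos : ∀ t ∈ Metric.ball x₀ δ, 0 < ρT t := fun t ht => by
    rw [hρT]
    show 0 < rho κ (uT t) (kT t)
    unfold rho
    have h1 := huTpos t ht
    have h2 := hkTpos t ht
    positivity
  have hρder : ∀ t ∈ Metric.ball x₀ δ, HasDerivAt ρT (ρd t) t := by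
    intro t ht
    have h : HasDerivAt (fun t => uT t * kT t * κ⁻¹)
        ((vT t * kT t + uT t * (-sT t * pT t)) * κ⁻¹) t :=
      ((huTder t ht).mul (hkTder t ht)).mul_const κ⁻¹
    rw [hρT, hρd]
    show HasDerivAt (fun t => uT t * kT t * κ⁻¹)
      (a1 κ (vT t) (kT t) + b1 κ (uT t) (sT t) * pT t) t
    convert h using 1
    simp only [a1, b1]
    ring
  have hhder : ∀ t ∈ Metric.ball x₀ δ, HasDerivAt hT (hd' t) t := by
    intro t ht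
    have h : HasDerivAt (fun t => uT t * sT t * l⁻¹)
        ((vT t * sT t + uT t * (kT t * pT t)) * l⁻¹) t :=
      ((huTder t ht).mul (hsTder t ht)).mul_const l⁻¹
    rw [hhT, hhd]
    show HasDerivAt (fun t => uT t * sT t * l⁻¹)
      (a2 l (vT t) (sT t) + b2 l (uT t) (kT t) * pT t) t
    convert h using 1
    simp only [a2, b2]
    ring
  -- the angle
  have hints : ContDiffOn ℝ ∞ (fun t => TT t / (c * ρT t ^ 2)) (Metric.ball x₀ δ) :=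
    hTTs.div (contDiffOn_const.mul (hρTs.pow 2))
      (fun t ht => (mul_pos hcpos (pow_pos (hρTpos t ht) 2)).ne')
  obtain ⟨hφder, hφsm⟩ := primitive_smooth _ x₀ δ hints
  obtain ⟨φ, hφ⟩ : ∃ φ : ℝ → ℝ, φ = fun x => ∫ t in x₀..x, TT t / (c * ρT t ^ 2) := ⟨_, rfl⟩
  rw [← hφ] at hφder hφsm
  -- the three equations
  have hkey : ∀ t ∈ Metric.ball x₀ δ,
      ρd t ^ 2 + ρT t ^ 2 * (TT t / (c * ρT t ^ 2)) ^ 2 + hd' t ^ 2 = E t ∧
      l * (ρT t * ρd t + hT t * hd' t) + c * ρT t ^ 2 * (TT t / (c * ρT t ^ 2)) = F t ∧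
      (l ^ 2 + c ^ 2) * ρT t ^ 2 + l ^ 2 * hT t ^ 2 = G t := by
    intro t ht
    have hρpos := hρTpos t ht
    have hρne : ρT t ≠ 0 := hρpos.ne'
    have hcne : c ≠ 0 := hcpos.ne'
    have hκne : κ ≠ 0 := hκpos.ne'
    have hupos := huTpos t ht
    have hkpos' := hkTpos t ht
    have hW := hγW t ht
    have hApos : 0 < cA l c κ (uT t) (sT t) (kT t) := cA_pos l c κ _ _ _ hl hupos hkpos'
    have hdisc : 0 < (cB l c κ (F t) (uT t) (vT t) (sT t) (kT t)) ^ 2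
        - 4 * cA l c κ (uT t) (sT t) (kT t) * cC l c κ (E t) (F t) (uT t) (vT t) (sT t) (kT t) := by
      have h := hW'D _ hW
      rw [hDq, hAq, hBq, hCq, heq, hfq, huq, hvq, hsq, hkq] at h
      rw [huT, hvT, hsT, hkT]
      exact h
    have hp : pT t = psiF l c κ (E t) (F t) (uT t) (vT t) (sT t) (kT t) := by
      rw [hpT, hΨ, hDq, hAq, hBq, hCq, heq, hfq, huq, hvq, hsq, hkq, huT, hvT, hsT, hkT]
      rfl
    have hquad : cA l c κ (uT t) (sT t) (kT t) * pT t ^ 2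
        + cB l c κ (F t) (uT t) (vT t) (sT t) (kT t) * pT t
        + cC l c κ (E t) (F t) (uT t) (vT t) (sT t) (kT t) = 0 := by
      rw [hp]
      exact quad_root _ _ _ hApos hdisc.le
    have hρdt : ρd t = a1 κ (vT t) (kT t) + b1 κ (uT t) (sT t) * pT t := by rw [hρd]
    have hhdt : hd' t = a2 l (vT t) (sT t) + b2 l (uT t) (kT t) * pT t := by rw [hhd]
    have hρt : ρT t = rho κ (uT t) (kT t) := by rw [hρT]
    have hht : hT t = hh l (uT t) (sT t) := by rw [hhT]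
    have hTTdef : TT t = F t - l * (ρT t * ρd t + hT t * hd' t) := by rw [hTT]
    have hTTt : TT t = t0 l κ (F t) (uT t) (vT t) (sT t) (kT t)
        + t1 l κ (uT t) (sT t) (kT t) * pT t := by
      rw [hTTdef, hρdt, hhdt, hρt, hht]
      simp only [t0, t1]
      ring
    have hnn : nn c κ (uT t) (kT t) = c ^ 2 * ρT t ^ 2 := by rw [hρt]; rfl
    have hφ2 : ρT t ^ 2 * (TT t / (c * ρT t ^ 2)) ^ 2 = TT t ^ 2 / nn c κ (uT t) (kT t) := by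
      rw [hnn]
      field_simp
    refine ⟨?_, ?_, ?_⟩
    · rw [hφ2, hTTt, hρdt, hhdt]
      simp only [cA, cB, cC] at hquad
      linear_combination hquad
    · have h2 : c * ρT t ^ 2 * (TT t / (c * ρT t ^ 2)) = TT t := by field_simp
      rw [h2, hTTdef]
      ring
    · have h3a : κ ^ 2 * ρT t ^ 2 = uT t ^ 2 * kT t ^ 2 := by
        rw [hρt]
        unfold rho
        field_simp
      have h3b : l ^ 2 * hT t ^ 2 = uT t ^ 2 * sT t ^ 2 := by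
        rw [hht]
        unfold hh
        field_simp
      rw [← hκsq, h3a, h3b]
      linear_combination (uT t ^ 2) * hsk t + huTsq t ht
  -- the neighbourhood and the map
  refine ⟨Prod.fst ⁻¹' Metric.ball x₀ δ, Metric.isOpen_ball.preimage continuous_fst,
    Metric.mem_ball_self hδ, fun p hp => hJI _ hp,
    fun p => Real.exp (l * p.2) * (ρT p.1 * Real.cos (c * p.2 + φ p.1)),
    fun p => Real.exp (l * p.2) * (ρT p.1 * Real.sin (c * p.2 + φ p.1)),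
    fun p => Real.exp (l * p.2) * hT p.1, ?_, ?_, ?_, ?_⟩
  all_goals
    have hUopen : IsOpen (Prod.fst ⁻¹' Metric.ball x₀ δ : Set (ℝ × ℝ)) :=
      Metric.isOpen_ball.preimage continuous_fst
    have hfst : ContDiffOn ℝ ∞ (fun p : ℝ × ℝ => p.1) (Prod.fst ⁻¹' Metric.ball x₀ δ) :=
      contDiff_fst.contDiffOn
    have hmaps : Set.MapsTo (fun p : ℝ × ℝ => p.1) (Prod.fst ⁻¹' Metric.ball x₀ δ)
        (Metric.ball x₀ δ) := fun p hp => hp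
    have hρU : ContDiffOn ℝ ∞ (fun p : ℝ × ℝ => ρT p.1) (Prod.fst ⁻¹' Metric.ball x₀ δ) :=
      hρTs.comp hfst hmaps
    have hφU : ContDiffOn ℝ ∞ (fun p : ℝ × ℝ => φ p.1) (Prod.fst ⁻¹' Metric.ball x₀ δ) :=
      hφsm.comp hfst hmaps
    have hhU : ContDiffOn ℝ ∞ (fun p : ℝ × ℝ => hT p.1) (Prod.fst ⁻¹' Metric.ball x₀ δ) :=
      hhTs.comp hfst hmaps
    have hexpU : ContDiffOn ℝ ∞ (fun p : ℝ × ℝ => Real.exp (l * p.2))
        (Prod.fst ⁻¹' Metric.ball x₀ δ) :=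
      (Real.contDiff_exp.comp (contDiff_const.mul contDiff_snd)).contDiffOn
    have hθU : ContDiffOn ℝ ∞ (fun p : ℝ × ℝ => c * p.2 + φ p.1)
        (Prod.fst ⁻¹' Metric.ball x₀ δ) :=
      (contDiff_const.mul contDiff_snd).contDiffOn.add hφU
    have hXs : ContDiffOn ℝ ∞
        (fun p : ℝ × ℝ => Real.exp (l * p.2) * (ρT p.1 * Real.cos (c * p.2 + φ p.1)))
        (Prod.fst ⁻¹' Metric.ball x₀ δ) :=
      hexpU.mul (hρU.mul (Real.contDiff_cos.comp_contDiffOn hθU))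
    have hYs : ContDiffOn ℝ ∞
        (fun p : ℝ × ℝ => Real.exp (l * p.2) * (ρT p.1 * Real.sin (c * p.2 + φ p.1)))
        (Prod.fst ⁻¹' Metric.ball x₀ δ) :=
      hexpU.mul (hρU.mul (Real.contDiff_sin.comp_contDiffOn hθU))
    have hZs : ContDiffOn ℝ ∞ (fun p : ℝ × ℝ => Real.exp (l * p.2) * hT p.1)
        (Prod.fst ⁻¹' Metric.ball x₀ δ) := hexpU.mul hhU
  · exact hXs
  · exact hYs
  · exact hZs
  · rintro ⟨x, y⟩ hp
    have hx : x ∈ Metric.ball x₀ δ := hp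
    have hdiff : ∀ W : ℝ × ℝ → ℝ, ContDiffOn ℝ ∞ W (Prod.fst ⁻¹' Metric.ball x₀ δ) →
        DifferentiableAt ℝ W (x, y) := fun W hW =>
      (hW.differentiableOn (by simp)).differentiableAt (hUopen.mem_nhds hp)
    obtain ⟨H1, H2, H3⟩ := hkey x hx
    -- derivatives in the first variable
    have hθx : HasDerivAt (fun t => c * y + φ t) (TT x / (c * ρT x ^ 2)) x :=
      (hφder x hx).const_add (c * y)
    have hXx := fderiv_dir_fst _ x y _ (hdiff _ hXs)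
      (((hρder x hx).mul hθx.cos).const_mul (Real.exp (l * y)))
    have hYx := fderiv_dir_fst _ x y _ (hdiff _ hYs)
      (((hρder x hx).mul hθx.sin).const_mul (Real.exp (l * y)))
    have hZx := fderiv_dir_fst (fun p : ℝ × ℝ => Real.exp (l * p.2) * hT p.1) x y _
      (hdiff _ hZs) ((hhder x hx).const_mul (Real.exp (l * y)))
    -- derivatives in the second variable
    have hexpy : HasDerivAt (fun t => Real.exp (l * t)) (Real.exp (l * y) * (l * 1)) y :=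
      ((hasDerivAt_id y).const_mul l).exp
    have hθy : HasDerivAt (fun t => c * t + φ x) (c * 1) y :=
      ((hasDerivAt_id y).const_mul c).add_const (φ x)
    have hXy := fderiv_dir_snd _ x y _ (hdiff _ hXs)
      (hexpy.mul (hθy.cos.const_mul (ρT x)))
    have hYy := fderiv_dir_snd _ x y _ (hdiff _ hYs)
      (hexpy.mul (hθy.sin.const_mul (ρT x)))
    have hZy := fderiv_dir_snd (fun p : ℝ × ℝ => Real.exp (l * p.2) * hT p.1) x y _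
      (hdiff _ hZs) (hexpy.mul_const (hT x))
    rw [hXx, hYx, hZx, hXy, hYy, hZy]
    have hSC : Real.sin (c * y + φ x) ^ 2 + Real.cos (c * y + φ x) ^ 2 = 1 :=
      Real.sin_sq_add_cos_sq _
    have hExp : Real.exp (2 * l * y) = Real.exp (l * y) ^ 2 := by
      rw [← Real.exp_nat_mul]
      congr 1
      push_cast
      ring
    show _ = Real.exp (2 * l * y) * E x ∧ _ = Real.exp (2 * l * y) * F x
      ∧ _ = Real.exp (2 * l * y) * G x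
    rw [hExp]
    refine ⟨?_, ?_, ?_⟩
    · linear_combination (Real.exp (l * y) ^ 2
        * (ρd x ^ 2 + ρT x ^ 2 * (TT x / (c * ρT x ^ 2)) ^ 2)) * hSC + Real.exp (l * y) ^ 2 * H1
    · linear_combination (Real.exp (l * y) ^ 2
        * (l * ρT x * ρd x + c * ρT x ^ 2 * (TT x / (c * ρT x ^ 2)))) * hSC
        + Real.exp (l * y) ^ 2 * H2
    · linear_combination (Real.exp (l * y) ^ 2 * (l ^ 2 + c ^ 2) * ρT x ^ 2) * hSC
        + Real.exp (l * y) ^ 2 * H3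

end Vale.Agent.Helper26.P229Spiral
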