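import Vale.Agent.Helper7.P302.Defs3

/-!
# P302, task T-C3: the structural lower bound `OPT ≥ 18` for the third (51-item) instance

Given the combinatorial fact `hD` (no 14 index-disjoint pairs of positives in 14 distinct slots),
every packing of the instance uses at least 18 bins.  The proof is a weight count: bigs weigh 7,
smalls 1, the outer items 4, 3, 3, 3 (total 150); a bin has weight at most 8, except a bin with
exactly one big and two smalls, which has weight 9.
-/

namespace Vale.Agent.Helper26.P302OptGe3

open Finset Vale.Agent.Helper7.P302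

/-- The scaled size of item `i` (bin capacity 1950000). -/
def sz (i : Fin 51) : ℕ := itemsL3.getD i.1 0

/-- Indicator of the bigs (items 0..14). -/
def isB (i : Fin 51) : ℕ := if i.1 < 15 then 1 else 0

/-- Indicator of the smalls (items 15..46). -/
def isS (i : Fin 51) : ℕ := if 15 ≤ i.1 ∧ i.1 < 47 then 1 else 0

/-- Indicator of the outer item 845000. -/
def is1 (i : Fin 51) : ℕ := if i.1 = 47 then 1 else 0

/-- Indicator of the outer item 695000. -/
def is2 (i : Fin 51) : ℕ := if i.1 = 48 then 1 else 0

/-- Indicator of the outer item 645000. -/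
def is3 (i : Fin 51) : ℕ := if i.1 = 49 then 1 else 0

/-- Indicator of the outer item 620000. -/
def is4 (i : Fin 51) : ℕ := if i.1 = 50 then 1 else 0

/-- The weight of an item. -/
def wt (i : Fin 51) : ℕ := 7 * isB i + isS i + 4 * is1 i + 3 * is2 i + 3 * is3 i + 3 * is4 i

theorem sz_ge : ∀ i : Fin 51, 1449183 * isB i + 250000 * isS i + 845000 * is1 i + 695000 * is2 i
    + 645000 * is3 i + 620000 * is4 i ≤ sz i := by decide

theorem wt_total : ∑ i : Fin 51, wt i = 150 := by decide

theorem is1_total : ∑ i : Fin 51, is1 i = 1 := by decide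

theorem is2_total : ∑ i : Fin 51, is2 i = 1 := by decide

theorem is3_total : ∑ i : Fin 51, is3 i = 1 := by decide

theorem is4_total : ∑ i : Fin 51, is4 i = 1 := by decide

theorem big_sz : ∀ i : Fin 51, i.1 < 15 → sz i + slotsL.getD i.1 0 = 1450000 := by decide

theorem small_sz : ∀ i : Fin 51, 15 ≤ i.1 → i.1 < 47 →
    sz i = 250000 + posL2.getD (i.1 - 15) 0 := by decide

/-- The arithmetic of one bin: weight at most 8, except for one big with two smalls. -/
theorem bin_arith (a s c d e g : ℕ)
    (h : 1449183 * a + 250000 * s + 845000 * c + 695000 * d + 645000 * e + 620000 * g ≤ 1950000)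
    (hc : c ≤ 1) (hd : d ≤ 1) (he : e ≤ 1) (hg : g ≤ 1) :
    7 * a + s + 4 * c + 3 * d + 3 * e + 3 * g ≤ 8 ∨
      (a = 1 ∧ s = 2 ∧ 7 * a + s + 4 * c + 3 * d + 3 * e + 3 * g = 9) := by
  have ha : a ≤ 1 := by omega
  interval_cases a <;> interval_cases c <;> interval_cases d <;> interval_cases e <;>
    interval_cases g <;> omega

/-- Task T-C3: given `hD`, every packing of the third instance uses at least 18 bins. -/
theorem opt_ge3
    (hD : ∀ (s : Fin 14 → Fin 15) (p q : Fin 14 → Fin 32), Function.Injective s →
      Function.Injective (Sum.elim p q) →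
      (∀ k, posL2.getD (p k) 0 + posL2.getD (q k) 0 ≤ slotsL.getD (s k) 0) → False) :
    ∀ (m : ℕ) (f : Fin 51 → Fin m), IsPacking inst3 m f → 18 ≤ m := by
  intro m f hf
  by_contra hm
  have hm17 : m ≤ 17 := by omega
  -- the size bound of every bin, in natural numbers
  have hbin : ∀ b : Fin m, ∑ i ∈ univ.filter (fun i => f i = b), sz i ≤ 1950000 := by
    intro b
    have h := hf b
    have h2 : ∑ i ∈ univ.filter (fun i => f i = b), inst3 i
        = ((∑ i ∈ univ.filter (fun i => f i = b), sz i : ℕ) : ℚ) / 1950000 := by
      rw [Nat.cast_sum, Finset.sum_div]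
      rfl
    rw [h2] at h
    have h3 : ((∑ i ∈ univ.filter (fun i => f i = b), sz i : ℕ) : ℚ) ≤ 1950000 := by
      rwa [div_le_one (by norm_num)] at h
    exact_mod_cast h3
  -- weight of a bin
  have hw : ∀ b : Fin m, ∑ i ∈ univ.filter (fun i => f i = b), wt i ≤ 8 ∨
      (∑ i ∈ univ.filter (fun i => f i = b), isB i = 1 ∧
        ∑ i ∈ univ.filter (fun i => f i = b), isS i = 2 ∧
        ∑ i ∈ univ.filter (fun i => f i = b), wt i = 9) := by
    intro b
    have h1 : ∑ i ∈ univ.filter (fun i => f i = b), (1449183 * isB i + 250000 * isS i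
        + 845000 * is1 i + 695000 * is2 i + 645000 * is3 i + 620000 * is4 i) ≤ 1950000 :=
      le_trans (Finset.sum_le_sum fun i _ => sz_ge i) (hbin b)
    have e1 : ∑ i ∈ univ.filter (fun i => f i = b), (1449183 * isB i + 250000 * isS i
        + 845000 * is1 i + 695000 * is2 i + 645000 * is3 i + 620000 * is4 i)
        = 1449183 * ∑ i ∈ univ.filter (fun i => f i = b), isB i
          + 250000 * ∑ i ∈ univ.filter (fun i => f i = b), isS i
          + 845000 * ∑ i ∈ univ.filter (fun i => f i = b), is1 i
          + 695000 * ∑ i ∈ univ.filter (fun i => f i = b), is2 i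
          + 645000 * ∑ i ∈ univ.filter (fun i => f i = b), is3 i
          + 620000 * ∑ i ∈ univ.filter (fun i => f i = b), is4 i := by
      simp only [Finset.sum_add_distrib, Finset.mul_sum]
    have e2 : ∑ i ∈ univ.filter (fun i => f i = b), wt i
        = 7 * ∑ i ∈ univ.filter (fun i => f i = b), isB i
          + ∑ i ∈ univ.filter (fun i => f i = b), isS i
          + 4 * ∑ i ∈ univ.filter (fun i => f i = b), is1 i
          + 3 * ∑ i ∈ univ.filter (fun i => f i = b), is2 i
          + 3 * ∑ i ∈ univ.filter (fun i => f i = b), is3 i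
          + 3 * ∑ i ∈ univ.filter (fun i => f i = b), is4 i := by
      simp only [wt, Finset.sum_add_distrib, Finset.mul_sum]
    have b1 : ∑ i ∈ univ.filter (fun i => f i = b), is1 i ≤ 1 :=
      le_trans (Finset.sum_le_sum_of_subset (Finset.subset_univ _)) (le_of_eq is1_total)
    have b2 : ∑ i ∈ univ.filter (fun i => f i = b), is2 i ≤ 1 :=
      le_trans (Finset.sum_le_sum_of_subset (Finset.subset_univ _)) (le_of_eq is2_total)
    have b3 : ∑ i ∈ univ.filter (fun i => f i = b), is3 i ≤ 1 :=
      le_trans (Finset.sum_le_sum_of_subset (Finset.subset_univ _)) (le_of_eq is3_total)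
    have b4 : ∑ i ∈ univ.filter (fun i => f i = b), is4 i ≤ 1 :=
      le_trans (Finset.sum_le_sum_of_subset (Finset.subset_univ _)) (le_of_eq is4_total)
    rw [e1] at h1
    rw [e2]
    exact bin_arith _ _ _ _ _ _ h1 b1 b2 b3 b4
  -- total weight
  have htot : ∑ b : Fin m, ∑ i ∈ univ.filter (fun i => f i = b), wt i = 150 := by
    rw [Finset.sum_fiberwise]
    exact wt_total
  -- the set of pair bins
  let P : Finset (Fin m) := univ.filter (fun b =>
    ∑ i ∈ univ.filter (fun i => f i = b), isB i = 1 ∧
      ∑ i ∈ univ.filter (fun i => f i = b), isS i = 2)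
  have hP : 14 ≤ P.card := by
    have h1 : ∀ b : Fin m, ∑ i ∈ univ.filter (fun i => f i = b), wt i
        ≤ 8 + (if b ∈ P then 1 else 0) := by
      intro b
      rcases hw b with h | ⟨hB, hS, h9⟩
      · omega
      · have hb : b ∈ P := by
          simp only [P, Finset.mem_filter, Finset.mem_univ, true_and]
          exact ⟨hB, hS⟩
        rw [if_pos hb]
        omega
    have h2 : ∑ b : Fin m, ∑ i ∈ univ.filter (fun i => f i = b), wt i
        ≤ ∑ b : Fin m, (8 + (if b ∈ P then 1 else 0)) :=
      Finset.sum_le_sum fun b _ => h1 b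
    have h3 : ∑ b : Fin m, (8 + (if b ∈ P then 1 else 0)) = 8 * m + P.card := by
      rw [Finset.sum_add_distrib, Finset.sum_const, Finset.card_univ, Fintype.card_fin,
        Finset.sum_boole]
      simp [mul_comm]
    rw [htot, h3] at h2
    omega
  -- fourteen distinct pair bins
  have hcard : Fintype.card (Fin 14) ≤ Fintype.card {b // b ∈ P} := by
    rw [Fintype.card_fin, Fintype.card_coe]
    exact hP
  obtain ⟨e⟩ := Function.Embedding.nonempty_of_card_le hcard
  -- the three items of each chosen pair bin
  have hitems : ∀ k : Fin 14, ∃ (i j j' : Fin 51), i.1 < 15 ∧ (15 ≤ j.1 ∧ j.1 < 47) ∧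
      (15 ≤ j'.1 ∧ j'.1 < 47) ∧ j ≠ j' ∧ f i = (e k).1 ∧ f j = (e k).1 ∧ f j' = (e k).1 ∧
      posL2.getD (j.1 - 15) 0 + posL2.getD (j'.1 - 15) 0 ≤ slotsL.getD i.1 0 := by
    intro k
    have hb := (e k).2
    simp only [P, Finset.mem_filter, Finset.mem_univ, true_and] at hb
    obtain ⟨hB, hS⟩ := hb
    have hB' : ((univ.filter (fun i => f i = (e k).1)).filter (fun i : Fin 51 => i.1 < 15)).card
        = 1 := by
      rw [Finset.card_filter]
      exact hB
    have hS' : ((univ.filter (fun i => f i = (e k).1)).filter
        (fun i : Fin 51 => 15 ≤ i.1 ∧ i.1 < 47)).card = 2 := by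
      rw [Finset.card_filter]
      exact hS
    obtain ⟨i, hi⟩ := Finset.card_eq_one.mp hB'
    obtain ⟨j, j', hjj, hj⟩ := Finset.card_eq_two.mp hS'
    have hi' : i ∈ (univ.filter (fun i => f i = (e k).1)).filter (fun i : Fin 51 => i.1 < 15) := by
      rw [hi]
      exact Finset.mem_singleton_self i
    have hj1 : j ∈ (univ.filter (fun i => f i = (e k).1)).filter
        (fun i : Fin 51 => 15 ≤ i.1 ∧ i.1 < 47) := by
      rw [hj]
      exact Finset.mem_insert_self _ _
    have hj2 : j' ∈ (univ.filter (fun i => f i = (e k).1)).filter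
        (fun i : Fin 51 => 15 ≤ i.1 ∧ i.1 < 47) := by
      rw [hj]
      exact Finset.mem_insert_of_mem (Finset.mem_singleton_self _)
    simp only [Finset.mem_filter, Finset.mem_univ, true_and] at hi' hj1 hj2
    obtain ⟨hfi, hi15⟩ := hi'
    obtain ⟨hfj, hj15⟩ := hj1
    obtain ⟨hfj', hj'15⟩ := hj2
    refine ⟨i, j, j', hi15, hj15, hj'15, hjj, hfi, hfj, hfj', ?_⟩
    -- the three items lie in the bin, so their sizes add up to at most the capacity
    have hij : i ≠ j := by
      intro h
      rw [h] at hi15
      omega
    have hij' : i ≠ j' := by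
      intro h
      rw [h] at hi15
      omega
    have hsub : ({i, j, j'} : Finset (Fin 51)) ⊆ univ.filter (fun x => f x = (e k).1) := by
      intro x hx
      simp only [Finset.mem_insert, Finset.mem_singleton] at hx
      simp only [Finset.mem_filter, Finset.mem_univ, true_and]
      rcases hx with rfl | rfl | rfl
      · exact hfi
      · exact hfj
      · exact hfj'
    have hsum : ∑ x ∈ ({i, j, j'} : Finset (Fin 51)), sz x ≤ 1950000 :=
      le_trans (Finset.sum_le_sum_of_subset hsub) (hbin (e k).1)
    have hsum3 : ∑ x ∈ ({i, j, j'} : Finset (Fin 51)), sz x = sz i + (sz j + sz j') := by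
      rw [Finset.sum_insert, Finset.sum_insert, Finset.sum_singleton]
      · simpa using hjj
      · simp only [Finset.mem_insert, Finset.mem_singleton, not_or]
        exact ⟨hij, hij'⟩
    rw [hsum3] at hsum
    have h1 := big_sz i hi15
    have h2 := small_sz j hj15.1 hj15.2
    have h3 := small_sz j' hj'15.1 hj'15.2
    omega
  choose i j j' hi hj hj' hne hfi hfj hfj' hfit using hitems
  -- bins of different indices are different
  have hek : ∀ k k' : Fin 14, (e k).1 = (e k').1 → k = k' := by
    intro k k' h
    exact e.injective (Subtype.ext h)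
  refine hD (fun k => ⟨(i k).1, hi k⟩) (fun k => ⟨(j k).1 - 15, by have := hj k; omega⟩)
    (fun k => ⟨(j' k).1 - 15, by have := hj' k; omega⟩) ?_ ?_ ?_
  · intro k k' h
    have h1 : (i k).1 = (i k').1 := by simpa using congrArg Fin.val h
    have h2 : i k = i k' := Fin.ext h1
    apply hek
    rw [← hfi k, ← hfi k', h2]
  · intro x y hxy
    rcases x with k | k <;> rcases y with k' | k'
    · simp only [Sum.elim_inl] at hxy
      have h1 : (j k).1 - 15 = (j k').1 - 15 := by simpa using congrArg Fin.val hxy
      have h2 : j k = j k' := by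
        apply Fin.ext
        have := hj k
        have := hj k'
        omega
      have h3 : k = k' := by
        apply hek
        rw [← hfj k, ← hfj k', h2]
      rw [h3]
    · simp only [Sum.elim_inl, Sum.elim_inr] at hxy
      have h1 : (j k).1 - 15 = (j' k').1 - 15 := by simpa using congrArg Fin.val hxy
      have h2 : j k = j' k' := by
        apply Fin.ext
        have := hj k
        have := hj' k'
        omega
      have h3 : k = k' := by
        apply hek
        rw [← hfj k, ← hfj' k', h2]
      subst h3
      exact absurd h2 (hne k)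
    · simp only [Sum.elim_inl, Sum.elim_inr] at hxy
      have h1 : (j' k).1 - 15 = (j k').1 - 15 := by simpa using congrArg Fin.val hxy
      have h2 : j' k = j k' := by
        apply Fin.ext
        have := hj' k
        have := hj k'
        omega
      have h3 : k = k' := by
        apply hek
        rw [← hfj' k, ← hfj k', h2]
      subst h3
      exact absurd h2.symm (hne k)
    · simp only [Sum.elim_inr] at hxy
      have h1 : (j' k).1 - 15 = (j' k').1 - 15 := by simpa using congrArg Fin.val hxy
      have h2 : j' k = j' k' := by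
        apply Fin.ext
        have := hj' k
        have := hj' k'
        omega
      have h3 : k = k' := by
        apply hek
        rw [← hfj' k, ← hfj' k', h2]
      rw [h3]
  · intro k
    exact hfit k

end Vale.Agent.Helper26.P302OptGe3
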