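import Mathlib

/-!
Step 2 of the merging inequality for the vertex-truncated simplex
Mahler problem (P254): chord bounds for
`x v = sinh v / (sinh l * sinh (l + v))` and `z v = sinh v / (cosh l * cosh (l + v))`,
i.e. `v * x w <= w * x v` and `v * z w <= w * z v` for `0 <= v <= w`.
-/

namespace Vale.Agent.Helper26.WnChord

open Real

/-- `sinh s / s` is increasing, in product form. -/
theorem sinh_star (a b : ℝ) (ha : 0 ≤ a) (hab : a ≤ b) : b * sinh a ≤ a * sinh b := by
  have hsa := (Real.hasSum_sinh a).mul_left b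
  have hsb := (Real.hasSum_sinh b).mul_left a
  refine hasSum_le ?_ hsa hsb
  intro n
  have hb : 0 ≤ b := le_trans ha hab
  have hpow : a ^ (2 * n) ≤ b ^ (2 * n) := pow_le_pow_left₀ ha hab _
  have hfac : (0 : ℝ) < ((2 * n + 1).factorial : ℝ) := by positivity
  have e1 : b * (a ^ (2 * n + 1) / ((2 * n + 1).factorial : ℝ))
      = a * b * a ^ (2 * n) / ((2 * n + 1).factorial : ℝ) := by ring
  have e2 : a * (b ^ (2 * n + 1) / ((2 * n + 1).factorial : ℝ))
      = a * b * b ^ (2 * n) / ((2 * n + 1).factorial : ℝ) := by ring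
  rw [e1, e2]
  apply div_le_div_of_nonneg_right _ hfac.le
  exact mul_le_mul_of_nonneg_left hpow (mul_nonneg ha hb)

/-- `tanh v / v` is decreasing, in product form. -/
theorem tanh_star (v w : ℝ) (hv : 0 ≤ v) (hvw : v ≤ w) :
    v * (sinh w * cosh v) ≤ w * (sinh v * cosh w) := by
  have h := sinh_star (w - v) (w + v) (by linarith) (by linarith)
  have e1 : sinh (w + v) = sinh w * cosh v + cosh w * sinh v := Real.sinh_add w v
  have e2 : sinh (w - v) = sinh w * cosh v - cosh w * sinh v := Real.sinh_sub w v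
  rw [e1, e2] at h
  nlinarith [h]

/-- Chord bound for `x`, product form. -/
theorem chord_x (l v w : ℝ) (hl : 0 ≤ l) (hv : 0 ≤ v) (hvw : v ≤ w) :
    v * (sinh w * sinh (l + v)) ≤ w * (sinh v * sinh (l + w)) := by
  have hw : 0 ≤ w := le_trans hv hvw
  have h := tanh_star v w hv hvw
  have hsl : 0 ≤ sinh l := Real.sinh_nonneg_iff.mpr hl
  have hsv : 0 ≤ sinh v := Real.sinh_nonneg_iff.mpr hv
  have hsw : 0 ≤ sinh w := Real.sinh_nonneg_iff.mpr hw
  have hcl : 0 < cosh l := Real.cosh_pos l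
  rw [Real.sinh_add l v, Real.sinh_add l w]
  have t1 : 0 ≤ sinh l * (w * (sinh v * cosh w) - v * (sinh w * cosh v)) :=
    mul_nonneg hsl (by linarith)
  have t2 : 0 ≤ cosh l * (sinh v * sinh w) * (w - v) :=
    mul_nonneg (mul_nonneg hcl.le (mul_nonneg hsv hsw)) (by linarith)
  nlinarith [t1, t2]

/-- Chord bound for `z`, product form. -/
theorem chord_z (l v w : ℝ) (hl : 0 ≤ l) (hv : 0 ≤ v) (hvw : v ≤ w) :
    v * (sinh w * cosh (l + v)) ≤ w * (sinh v * cosh (l + w)) := by
  have hw : 0 ≤ w := le_trans hv hvw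
  have h := tanh_star v w hv hvw
  have hsl : 0 ≤ sinh l := Real.sinh_nonneg_iff.mpr hl
  have hsv : 0 ≤ sinh v := Real.sinh_nonneg_iff.mpr hv
  have hsw : 0 ≤ sinh w := Real.sinh_nonneg_iff.mpr hw
  have hcl : 0 < cosh l := Real.cosh_pos l
  rw [Real.cosh_add l v, Real.cosh_add l w]
  have t1 : 0 ≤ cosh l * (w * (sinh v * cosh w) - v * (sinh w * cosh v)) :=
    mul_nonneg hcl.le (by linarith)
  have t2 : 0 ≤ sinh l * (sinh v * sinh w) * (w - v) :=
    mul_nonneg (mul_nonneg hsl (mul_nonneg hsv hsw)) (by linarith)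
  nlinarith [t1, t2]

/-- Chord bound for `x`, quotient form: `(v / w) * x w <= x v`. -/
theorem chord_x_div (l v w : ℝ) (hl : 0 < l) (hv : 0 ≤ v) (hvw : v ≤ w) (hw : 0 < w) :
    v / w * (sinh w / (sinh l * sinh (l + w))) ≤ sinh v / (sinh l * sinh (l + v)) := by
  have h := chord_x l v w hl.le hv hvw
  have hsl : 0 < sinh l := Real.sinh_pos_iff.mpr hl
  have hslv : 0 < sinh (l + v) := Real.sinh_pos_iff.mpr (by linarith)
  have hslw : 0 < sinh (l + w) := Real.sinh_pos_iff.mpr (by linarith)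
  rw [div_mul_div_comm, div_le_div_iff₀ (by positivity) (by positivity)]
  have e : v * sinh w * (sinh l * sinh (l + v)) - sinh v * (w * (sinh l * sinh (l + w)))
      = sinh l * (v * (sinh w * sinh (l + v)) - w * (sinh v * sinh (l + w))) := by ring
  have t : sinh l * (v * (sinh w * sinh (l + v)) - w * (sinh v * sinh (l + w))) ≤ 0 :=
    mul_nonpos_of_nonneg_of_nonpos hsl.le (by linarith)
  linarith

/-- Chord bound for `z`, quotient form: `(v / w) * z w <= z v`. -/
theorem chord_z_div (l v w : ℝ) (hl : 0 ≤ l) (hv : 0 ≤ v) (hvw : v ≤ w) (hw : 0 < w) :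
    v / w * (sinh w / (cosh l * cosh (l + w))) ≤ sinh v / (cosh l * cosh (l + v)) := by
  have h := chord_z l v w hl hv hvw
  have hcl : 0 < cosh l := Real.cosh_pos l
  have hclv : 0 < cosh (l + v) := Real.cosh_pos _
  have hclw : 0 < cosh (l + w) := Real.cosh_pos _
  rw [div_mul_div_comm, div_le_div_iff₀ (by positivity) (by positivity)]
  have e : v * sinh w * (cosh l * cosh (l + v)) - sinh v * (w * (cosh l * cosh (l + w)))
      = cosh l * (v * (sinh w * cosh (l + v)) - w * (sinh v * cosh (l + w))) := by ring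
  have t : cosh l * (v * (sinh w * cosh (l + v)) - w * (sinh v * cosh (l + w))) ≤ 0 :=
    mul_nonpos_of_nonneg_of_nonpos hcl.le (by linarith)
  linarith

end Vale.Agent.Helper26.WnChord
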