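import Mathlib

/-!
Step 3 of the merging inequality for the vertex-truncated simplex
Mahler problem (P254): nonnegativity of the function `D`.
The proof is by power series: the coefficient of `t^(2j+1)/(2j+1)!` is `cD k j`,
which vanishes for `j = 0` and satisfies
`cD k (j+1) = (10+2k)^2 * cD k j + brD k j` with `brD >= 0`.
-/

namespace Vale.Agent.Helper26.WnD

open Real

/-- Coefficient of `t^(2j+1)/(2j+1)!` in the expansion of `D`. -/
noncomputable def cD (k : ℝ) (j : ℕ) : ℝ :=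
  1 / 4 * (14 + 4 * k) ^ (2 * j + 1) - 3 / 4 * (10 + 2 * k) ^ (2 * j + 1)
    + 1 / 4 * (6 + 2 * k) ^ (2 * j + 1) - (2 + 2 * k) ^ (2 * j + 1)
    + (1 + k / 2) * 6 ^ (2 * j + 1) - (3 / 4 + k / 2) * 2 ^ (2 * j + 1)

/-- The bracket in the two-step recurrence. -/
noncomputable def brD (k : ℝ) (j : ℕ) : ℝ :=
  3 * (2 + k) * (4 + k) * (14 + 4 * k) ^ (2 * j + 1)
    - 4 * (4 + k) * (6 + 2 * k) ^ (2 * j + 1)
    + 32 * (3 + k) * (2 + 2 * k) ^ (2 * j + 1)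
    - 2 * (2 + k) ^ 2 * (8 + k) * 6 ^ (2 * j + 1)
    + (3 + 2 * k) * (4 + k) * (6 + k) * 2 ^ (2 * j + 1)

theorem cD_zero (k : ℝ) : cD k 0 = 0 := by
  simp only [cD, Nat.mul_zero, Nat.zero_add, pow_one]
  ring

theorem cD_step (k : ℝ) (j : ℕ) :
    cD k (j + 1) = (10 + 2 * k) ^ 2 * cD k j + brD k j := by
  simp only [cD, brD]
  ring

theorem brD_zero (k : ℝ) : brD k 0 = 192 + 272 * k + 72 * k ^ 2 + 4 * k ^ 3 := by
  simp only [brD, Nat.mul_zero, Nat.zero_add, pow_one]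
  ring

theorem brD_nonneg (k : ℝ) (hk : 0 ≤ k) (j : ℕ) : 0 ≤ brD k j := by
  rcases Nat.eq_zero_or_pos j with hj | hj
  · subst hj
    rw [brD_zero]
    positivity
  · obtain ⟨i, rfl⟩ : ∃ i, j = i + 1 := ⟨j - 1, by omega⟩
    have hP : (0 : ℝ) ≤ (14 + 4 * k) ^ (2 * i) := by positivity
    have hQP : (6 + 2 * k) ^ (2 * i) ≤ (14 + 4 * k) ^ (2 * i) :=
      pow_le_pow_left₀ (by linarith) (by linarith) _
    have hRP : (6 : ℝ) ^ (2 * i) ≤ (14 + 4 * k) ^ (2 * i) :=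
      pow_le_pow_left₀ (by norm_num) (by linarith) _
    have h3 : 8 * (6 + 2 * k) ^ 3 ≤ (14 + 4 * k) ^ 3 := by
      have h := pow_le_pow_left₀ (show (0 : ℝ) ≤ 12 + 4 * k by linarith)
        (show 12 + 4 * k ≤ 14 + 4 * k by linarith) 3
      have e : (12 + 4 * k) ^ 3 = 8 * (6 + 2 * k) ^ 3 := by ring
      linarith
    have hQ3 : (6 + 2 * k) ^ (2 * i) * (8 * (6 + 2 * k) ^ 3)
        ≤ (14 + 4 * k) ^ (2 * i) * (14 + 4 * k) ^ 3 :=
      mul_le_mul hQP h3 (by positivity) hP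
    have key : (11 / 2 + 3 * k) * (4 + k) * (14 + 4 * k) ^ 3 - 432 * (2 + k) ^ 2 * (8 + k)
        = 46544 + 84212 * k + 58992 * k ^ 2 + 19792 * k ^ 3 + 3136 * k ^ 4 + 192 * k ^ 5 := by
      ring
    have hkey : 0 ≤ (11 / 2 + 3 * k) * (4 + k) * (14 + 4 * k) ^ 3
        - 432 * (2 + k) ^ 2 * (8 + k) := by
      rw [key]
      positivity
    have hrew : brD k (i + 1)
        = (14 + 4 * k) ^ (2 * i) * ((11 / 2 + 3 * k) * (4 + k) * (14 + 4 * k) ^ 3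
            - 432 * (2 + k) ^ 2 * (8 + k))
          + (4 + k) / 2 * ((14 + 4 * k) ^ (2 * i) * (14 + 4 * k) ^ 3
            - (6 + 2 * k) ^ (2 * i) * (8 * (6 + 2 * k) ^ 3))
          + 432 * (2 + k) ^ 2 * (8 + k) * ((14 + 4 * k) ^ (2 * i) - 6 ^ (2 * i))
          + 32 * (3 + k) * (2 + 2 * k) ^ (2 * (i + 1) + 1)
          + (3 + 2 * k) * (4 + k) * (6 + k) * 2 ^ (2 * (i + 1) + 1) := by
      simp only [brD]
      ring
    rw [hrew]
    have t1 : 0 ≤ (14 + 4 * k) ^ (2 * i) * ((11 / 2 + 3 * k) * (4 + k) * (14 + 4 * k) ^ 3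
        - 432 * (2 + k) ^ 2 * (8 + k)) := mul_nonneg hP hkey
    have t2 : 0 ≤ (4 + k) / 2 * ((14 + 4 * k) ^ (2 * i) * (14 + 4 * k) ^ 3
        - (6 + 2 * k) ^ (2 * i) * (8 * (6 + 2 * k) ^ 3)) :=
      mul_nonneg (by linarith) (by linarith)
    have t3 : 0 ≤ 432 * (2 + k) ^ 2 * (8 + k) * ((14 + 4 * k) ^ (2 * i) - 6 ^ (2 * i)) :=
      mul_nonneg (by positivity) (by linarith)
    have t4 : 0 ≤ 32 * (3 + k) * (2 + 2 * k) ^ (2 * (i + 1) + 1) := by positivity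
    have t5 : 0 ≤ (3 + 2 * k) * (4 + k) * (6 + k) * 2 ^ (2 * (i + 1) + 1) := by positivity
    linarith

theorem cD_nonneg (k : ℝ) (hk : 0 ≤ k) : ∀ j : ℕ, 0 ≤ cD k j := by
  intro j
  induction j with
  | zero => rw [cD_zero]
  | succ j ih =>
    rw [cD_step]
    have h1 : 0 ≤ (10 + 2 * k) ^ 2 * cD k j := mul_nonneg (by positivity) ih
    have h2 : 0 ≤ brD k j := brD_nonneg k hk j
    linarith

/-- The function of Step 3. -/
noncomputable def D (k t : ℝ) : ℝ :=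
  1 / 4 * sinh ((14 + 4 * k) * t) - 3 / 4 * sinh ((10 + 2 * k) * t)
    + 1 / 4 * sinh ((6 + 2 * k) * t) - sinh ((2 + 2 * k) * t)
    + (1 + k / 2) * sinh (6 * t) - (3 / 4 + k / 2) * sinh (2 * t)

theorem hasSum_D (k t : ℝ) :
    HasSum (fun j : ℕ => cD k j * (t ^ (2 * j + 1) / ((2 * j + 1).factorial : ℝ))) (D k t) := by
  have h14 := Real.hasSum_sinh ((14 + 4 * k) * t)
  have h10 := Real.hasSum_sinh ((10 + 2 * k) * t)
  have h6k := Real.hasSum_sinh ((6 + 2 * k) * t)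
  have h2k := Real.hasSum_sinh ((2 + 2 * k) * t)
  have h6 := Real.hasSum_sinh (6 * t)
  have h2 := Real.hasSum_sinh (2 * t)
  have hall := (((((h14.mul_left (1 / 4)).sub (h10.mul_left (3 / 4))).add
    (h6k.mul_left (1 / 4))).sub h2k).add (h6.mul_left (1 + k / 2))).sub
    (h2.mul_left (3 / 4 + k / 2))
  have hfun : (fun j : ℕ => cD k j * (t ^ (2 * j + 1) / ((2 * j + 1).factorial : ℝ)))
      = (fun j : ℕ => 1 / 4 * (((14 + 4 * k) * t) ^ (2 * j + 1) / ((2 * j + 1).factorial : ℝ))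
        - 3 / 4 * (((10 + 2 * k) * t) ^ (2 * j + 1) / ((2 * j + 1).factorial : ℝ))
        + 1 / 4 * (((6 + 2 * k) * t) ^ (2 * j + 1) / ((2 * j + 1).factorial : ℝ))
        - ((2 + 2 * k) * t) ^ (2 * j + 1) / ((2 * j + 1).factorial : ℝ)
        + (1 + k / 2) * ((6 * t) ^ (2 * j + 1) / ((2 * j + 1).factorial : ℝ))
        - (3 / 4 + k / 2) * ((2 * t) ^ (2 * j + 1) / ((2 * j + 1).factorial : ℝ))) := by
    funext j
    simp only [cD, mul_pow]
    ring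
  rw [hfun]
  exact hall

/-- Step 3: `D k t >= 0` for `k, t >= 0`. -/
theorem D_nonneg (k t : ℝ) (hk : 0 ≤ k) (ht : 0 ≤ t) :
    0 ≤ 1 / 4 * sinh ((14 + 4 * k) * t) - 3 / 4 * sinh ((10 + 2 * k) * t)
      + 1 / 4 * sinh ((6 + 2 * k) * t) - sinh ((2 + 2 * k) * t)
      + (1 + k / 2) * sinh (6 * t) - (3 / 4 + k / 2) * sinh (2 * t) := by
  have hs := hasSum_D k t
  have hterm : ∀ j : ℕ, 0 ≤ cD k j * (t ^ (2 * j + 1) / ((2 * j + 1).factorial : ℝ)) := by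
    intro j
    exact mul_nonneg (cD_nonneg k hk j) (by positivity)
  exact hs.nonneg hterm

end Vale.Agent.Helper26.WnD
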