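import Mathlib

/-!
Step 4 of the merging inequality for the vertex-truncated simplex
Mahler problem (P254): nonnegativity of the extremal-family function `E`.
The proof is by power series: the coefficient of `m^(2j)/(2j)!` is `cE N j`,
which vanishes for `j = 0, 1` and satisfies
`cE N (j+2) = (4+N)^2 * cE N (j+1) + N * br N (j+1)` with `br >= 0`.
-/

namespace Vale.Agent.Helper26.WnE

open Real

/-- Coefficient of `m^(2j)/(2j)!` in the expansion of `E`. -/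
noncomputable def cE (N : ℝ) (j : ℕ) : ℝ :=
  N / 8 * ((8 + N) ^ (2 * j) - (6 + N) ^ (2 * j)) - (4 + N) ^ (2 * j) + 4 ^ (2 * j)
    + N / 8 * (2 ^ (2 * j) - 0 ^ (2 * j))
    + N * (8 + N) / 16 * (4 ^ (2 * j) - 2 * 2 ^ (2 * j) + 0 ^ (2 * j))

/-- The bracket in the two-step recurrence. -/
noncomputable def br (N : ℝ) (j : ℕ) : ℝ :=
  (6 + N) * (8 + N) ^ (2 * j) - (5 + N) / 2 * (6 + N) ^ (2 * j)
    - (4 + N) ^ 2 / 16 * (8 + N) * 4 ^ (2 * j)
    + (7 + N) * (2 + N) * (6 + N) / 8 * 2 ^ (2 * j)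

theorem cE_zero (N : ℝ) : cE N 0 = 0 := by
  simp only [cE, Nat.mul_zero, pow_zero]
  ring

theorem cE_one (N : ℝ) : cE N 1 = 0 := by
  simp only [cE, Nat.mul_one]
  ring

theorem cE_step (N : ℝ) (j : ℕ) :
    cE N (j + 2) = (4 + N) ^ 2 * cE N (j + 1) + N * br N (j + 1) := by
  have h0 : (0 : ℝ) ^ (2 * (j + 1)) = 0 := by
    apply zero_pow
    omega
  have h1 : (0 : ℝ) ^ (2 * (j + 2)) = 0 := by
    apply zero_pow
    omega
  simp only [cE, br, h0, h1]
  ring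

theorem br_one (N : ℝ) : br N 1 = 208 + 66 * N + 5 * N ^ 2 := by
  simp only [br, Nat.mul_one]
  ring

theorem br_nonneg (N : ℝ) (hN : 0 ≤ N) (j : ℕ) : 0 ≤ br N (j + 1) := by
  rcases Nat.eq_zero_or_pos j with hj | hj
  · subst hj
    rw [br_one]
    positivity
  · obtain ⟨i, rfl⟩ : ∃ i, j = i + 1 := ⟨j - 1, by omega⟩
    have hP : (0 : ℝ) ≤ (8 + N) ^ (2 * i) := by positivity
    have hQP : (6 + N) ^ (2 * i) ≤ (8 + N) ^ (2 * i) :=
      pow_le_pow_left₀ (by linarith) (by linarith) _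
    have hRP : (4 : ℝ) ^ (2 * i) ≤ (8 + N) ^ (2 * i) :=
      pow_le_pow_left₀ (by norm_num) (by linarith) _
    have hS : (0 : ℝ) ≤ 2 ^ (2 * i) := by positivity
    have h64 : (6 + N) ^ 4 ≤ (8 + N) ^ 4 :=
      pow_le_pow_left₀ (by linarith) (by linarith) _
    have hQ4 : (6 + N) ^ (2 * i) * (6 + N) ^ 4 ≤ (8 + N) ^ (2 * i) * (8 + N) ^ 4 :=
      mul_le_mul hQP h64 (by positivity) hP
    have key : (7 + N) / 2 * (8 + N) ^ 4 - 16 * (4 + N) ^ 2 * (8 + N)
        = (8 + N) * (1536 + 800 * N + 164 * N ^ 2 + 31 / 2 * N ^ 3 + 1 / 2 * N ^ 4) := by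
      ring
    have hkey : 0 ≤ (7 + N) / 2 * (8 + N) ^ 4 - 16 * (4 + N) ^ 2 * (8 + N) := by
      rw [key]
      positivity
    have hrew : br N (i + 1 + 1)
        = (8 + N) ^ (2 * i) * ((7 + N) / 2 * (8 + N) ^ 4 - 16 * (4 + N) ^ 2 * (8 + N))
          + (5 + N) / 2 * ((8 + N) ^ (2 * i) * (8 + N) ^ 4 - (6 + N) ^ (2 * i) * (6 + N) ^ 4)
          + 16 * (4 + N) ^ 2 * (8 + N) * ((8 + N) ^ (2 * i) - 4 ^ (2 * i))
          + (7 + N) * (2 + N) * (6 + N) / 8 * 16 * 2 ^ (2 * i) := by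
      simp only [br]
      ring
    rw [hrew]
    have t1 : 0 ≤ (8 + N) ^ (2 * i) * ((7 + N) / 2 * (8 + N) ^ 4 - 16 * (4 + N) ^ 2 * (8 + N)) :=
      mul_nonneg hP hkey
    have t2 : 0 ≤ (5 + N) / 2 * ((8 + N) ^ (2 * i) * (8 + N) ^ 4 - (6 + N) ^ (2 * i) * (6 + N) ^ 4) :=
      mul_nonneg (by linarith) (by linarith)
    have t3 : 0 ≤ 16 * (4 + N) ^ 2 * (8 + N) * ((8 + N) ^ (2 * i) - 4 ^ (2 * i)) :=
      mul_nonneg (by positivity) (by linarith)
    have t4 : 0 ≤ (7 + N) * (2 + N) * (6 + N) / 8 * 16 * 2 ^ (2 * i) := by positivity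
    linarith

theorem cE_nonneg (N : ℝ) (hN : 0 ≤ N) : ∀ j : ℕ, 0 ≤ cE N j := by
  have hstep : ∀ j : ℕ, 0 ≤ cE N (j + 1) := by
    intro j
    induction j with
    | zero => rw [cE_one]
    | succ j ih =>
      rw [cE_step]
      have h1 : 0 ≤ (4 + N) ^ 2 * cE N (j + 1) := mul_nonneg (by positivity) ih
      have h2 : 0 ≤ N * br N (j + 1) := mul_nonneg hN (br_nonneg N hN j)
      linarith
  intro j
  cases j with
  | zero => rw [cE_zero]
  | succ j => exact hstep j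

/-- The extremal-family function of Step 4. -/
noncomputable def E (N m : ℝ) : ℝ :=
  N / 8 * (cosh ((8 + N) * m) - cosh ((6 + N) * m)) - cosh ((4 + N) * m) + cosh (4 * m)
    + N / 8 * (cosh (2 * m) - 1) + N * (8 + N) / 16 * (cosh (4 * m) - 2 * cosh (2 * m) + 1)

theorem hasSum_E (N m : ℝ) :
    HasSum (fun j : ℕ => cE N j * (m ^ (2 * j) / ((2 * j).factorial : ℝ))) (E N m) := by
  have h8 := Real.hasSum_cosh ((8 + N) * m)
  have h6 := Real.hasSum_cosh ((6 + N) * m)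
  have h4N := Real.hasSum_cosh ((4 + N) * m)
  have h4 := Real.hasSum_cosh (4 * m)
  have h2 := Real.hasSum_cosh (2 * m)
  have h0 := Real.hasSum_cosh (0 * m)
  have hc0 : cosh (0 * m) = 1 := by simp
  rw [hc0] at h0
  have hall := ((((((h8.sub h6).mul_left (N / 8)).sub h4N).add h4).add
    ((h2.sub h0).mul_left (N / 8))).add
    (((h4.sub (h2.mul_left 2)).add h0).mul_left (N * (8 + N) / 16)))
  have hfun : (fun j : ℕ => cE N j * (m ^ (2 * j) / ((2 * j).factorial : ℝ)))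
      = (fun j : ℕ => N / 8 * (((8 + N) * m) ^ (2 * j) / ((2 * j).factorial : ℝ)
          - ((6 + N) * m) ^ (2 * j) / ((2 * j).factorial : ℝ))
        - ((4 + N) * m) ^ (2 * j) / ((2 * j).factorial : ℝ)
        + (4 * m) ^ (2 * j) / ((2 * j).factorial : ℝ)
        + N / 8 * ((2 * m) ^ (2 * j) / ((2 * j).factorial : ℝ)
          - (0 * m) ^ (2 * j) / ((2 * j).factorial : ℝ))
        + N * (8 + N) / 16 * ((4 * m) ^ (2 * j) / ((2 * j).factorial : ℝ)
          - 2 * ((2 * m) ^ (2 * j) / ((2 * j).factorial : ℝ))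
          + (0 * m) ^ (2 * j) / ((2 * j).factorial : ℝ))) := by
    funext j
    simp only [cE, mul_pow]
    ring
  rw [hfun]
  exact hall

/-- Step 4: `E N m >= 0` for `N, m >= 0`. -/
theorem E_nonneg (N m : ℝ) (hN : 0 ≤ N) (hm : 0 ≤ m) :
    0 ≤ N / 8 * (cosh ((8 + N) * m) - cosh ((6 + N) * m)) - cosh ((4 + N) * m) + cosh (4 * m)
      + N / 8 * (cosh (2 * m) - 1) + N * (8 + N) / 16 * (cosh (4 * m) - 2 * cosh (2 * m) + 1) := by
  have hs := hasSum_E N m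
  have hterm : ∀ j : ℕ, 0 ≤ cE N j * (m ^ (2 * j) / ((2 * j).factorial : ℝ)) := by
    intro j
    exact mul_nonneg (cE_nonneg N hN j) (by positivity)
  exact hs.nonneg hterm

end Vale.Agent.Helper26.WnE
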