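import Mathlib

/-!
Algebraic core of the vertex-truncated simplex bound (P254): the merging induction.

For a finite family `a i ∈ (0, 1]` with product `p < 1` put `g i = 1 - p (a i)^2`,
`A = ∑ (1 - a i) / g i`, `L = ∑ (1 - a i)^2 / g i` and
`PsiP = (∏ g i) * ((1 - p - p L)^2 - p ((1 - p) A + p L)^2)`.
Then `PsiP ≤ (1 - p)^(n + 4)`, with equality iff at most one `a i` is `< 1`.
The one analytic input (`starW`) is taken as a hypothesis `StarHyp`.
-/

namespace Vale.Agent.Helper26.WnMerge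

open Finset

/-- The quadratic form in the two sums. -/
def QF (p A L : ℝ) : ℝ := (1 - p - p * L) ^ 2 - p * ((1 - p) * A + p * L) ^ 2

/-- Polynomial form of `g x * QF p (A + (1-x)/g x) (L + (1-x)^2/g x)`. -/
def RF (p x A L : ℝ) : ℝ :=
  (1 - p * x ^ 2) * ((1 - p - p * L) ^ 2 - p * ((1 - p) * A + p * L) ^ 2)
    - 2 * p * (1 - x) * ((1 - p - p * L) * (1 - x) + ((1 - p) * A + p * L) * (1 - p * x))
    - p * (1 - p) * (1 - x) ^ 2

/-- Polynomial form of the two-variable version. -/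
def R2F (p u v A L : ℝ) : ℝ :=
  (1 - p * u ^ 2) * RF p v A L
    - 2 * p * (1 - u) * (((1 - p * v ^ 2) * (1 - p - p * L) - p * (1 - v) ^ 2) * (1 - u)
        + ((1 - p * v ^ 2) * ((1 - p) * A + p * L) + (1 - v) * (1 - p * v)) * (1 - p * u))
    - p * (1 - p) * (1 - u) ^ 2 * (1 - p * v ^ 2)

theorem one_var (p x A L : ℝ) (hg : 1 - p * x ^ 2 ≠ 0) :
    (1 - p * x ^ 2) * QF p (A + (1 - x) / (1 - p * x ^ 2)) (L + (1 - x) ^ 2 / (1 - p * x ^ 2))
      = RF p x A L := by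
  unfold QF RF
  field_simp
  ring

theorem two_var (p u v A L : ℝ) (hgu : 1 - p * u ^ 2 ≠ 0) (hgv : 1 - p * v ^ 2 ≠ 0) :
    (1 - p * u ^ 2) * (1 - p * v ^ 2) *
      QF p ((1 - u) / (1 - p * u ^ 2) + ((1 - v) / (1 - p * v ^ 2) + A))
        ((1 - u) ^ 2 / (1 - p * u ^ 2) + ((1 - v) ^ 2 / (1 - p * v ^ 2) + L))
      = R2F p u v A L := by
  unfold QF R2F RF
  field_simp
  ring

theorem merge_identity (p u v A L : ℝ) :
    (1 - p) * RF p (u * v) A L - R2F p u v A L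
      = p * (1 - u) * (1 - v) * (1 - p) *
        (2 * (1 - p * (u * v)) * (4 + (A + p * (A - L)))
          - (1 + u) * (1 + v) * (4 * (1 - p) - p * (4 * L + A ^ 2 - p * (A - L) ^ 2))) := by
  unfold R2F RF
  ring

theorem merge_lt (p u v G A L : ℝ) (hG : 0 < G) (hp0 : 0 < p) (hp1 : p < 1)
    (hu : 0 < u) (hu1 : u < 1) (hv : 0 < v) (hv1 : v < 1) (hA : 0 ≤ A) (hLA : L ≤ A)
    (hstar : 4 * (u * v - p) ≤ (1 - p * (u * v)) * (A + p * (A - L))
      + (1 + u * v) * p * (4 * L + A ^ 2 - p * (A - L) ^ 2)) :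
    ((1 - p * u ^ 2) * ((1 - p * v ^ 2) * G)) *
        QF p ((1 - u) / (1 - p * u ^ 2) + ((1 - v) / (1 - p * v ^ 2) + A))
          ((1 - u) ^ 2 / (1 - p * u ^ 2) + ((1 - v) ^ 2 / (1 - p * v ^ 2) + L))
      < ((1 - p * (u * v) ^ 2) * ((1 - p) * G)) *
        QF p ((1 - u * v) / (1 - p * (u * v) ^ 2) + (0 + A))
          ((1 - u * v) ^ 2 / (1 - p * (u * v) ^ 2) + (0 + L)) := by
  have hu2 : u ^ 2 < 1 := by nlinarith
  have hv2 : v ^ 2 < 1 := by nlinarith
  have huv0 : 0 < u * v := mul_pos hu hv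
  have huv1 : u * v < 1 := by nlinarith
  have huv2 : (u * v) ^ 2 < 1 := by nlinarith
  have hgu : 0 < 1 - p * u ^ 2 := by nlinarith
  have hgv : 0 < 1 - p * v ^ 2 := by nlinarith
  have hgc : 0 < 1 - p * (u * v) ^ 2 := by nlinarith
  have hΔ : 0 ≤ A + p * (A - L) := add_nonneg hA (mul_nonneg hp0.le (by linarith))
  have hpc : 0 < 1 - p * (u * v) := by
    have h : p * (u * v) < 1 * 1 := mul_lt_mul hp1 huv1.le huv0 zero_le_one
    linarith
  have hbr : 0 < 2 * (1 - p * (u * v)) * (4 + (A + p * (A - L)))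
      - (1 + u) * (1 + v) * (4 * (1 - p) - p * (4 * L + A ^ 2 - p * (A - L) ^ 2)) := by
    by_cases hT : 4 * (1 - p) - p * (4 * L + A ^ 2 - p * (A - L) ^ 2) ≤ 0
    · have h1 : 0 < 2 * (1 - p * (u * v)) * (4 + (A + p * (A - L))) := by positivity
      have h2 : (1 + u) * (1 + v) * (4 * (1 - p) - p * (4 * L + A ^ 2 - p * (A - L) ^ 2)) ≤ 0 :=
        mul_nonpos_of_nonneg_of_nonpos (by positivity) hT
      linarith
    · have hT' := not_le.mp hT
      have h3 : 0 < (1 - u) * (1 - v) * (4 * (1 - p) - p * (4 * L + A ^ 2 - p * (A - L) ^ 2)) :=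
        mul_pos (mul_pos (by linarith) (by linarith)) hT'
      linarith [h3, hstar]
  have hpos : 0 < G * (p * (1 - u) * (1 - v) * (1 - p) *
      (2 * (1 - p * (u * v)) * (4 + (A + p * (A - L)))
        - (1 + u) * (1 + v) * (4 * (1 - p) - p * (4 * L + A ^ 2 - p * (A - L) ^ 2)))) := by
    apply mul_pos hG
    apply mul_pos _ hbr
    have h1 : 0 < 1 - u := by linarith
    have h2 : 0 < 1 - v := by linarith
    have h3 : 0 < 1 - p := by linarith
    positivity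
  have e1 : ((1 - p * u ^ 2) * ((1 - p * v ^ 2) * G)) *
        QF p ((1 - u) / (1 - p * u ^ 2) + ((1 - v) / (1 - p * v ^ 2) + A))
          ((1 - u) ^ 2 / (1 - p * u ^ 2) + ((1 - v) ^ 2 / (1 - p * v ^ 2) + L))
      = G * R2F p u v A L := by
    rw [← two_var p u v A L hgu.ne' hgv.ne']
    ring
  have e2 : ((1 - p * (u * v) ^ 2) * ((1 - p) * G)) *
        QF p ((1 - u * v) / (1 - p * (u * v) ^ 2) + (0 + A))
          ((1 - u * v) ^ 2 / (1 - p * (u * v) ^ 2) + (0 + L))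
      = G * ((1 - p) * RF p (u * v) A L) := by
    rw [← one_var p (u * v) A L hgc.ne', zero_add, zero_add, add_comm A, add_comm L]
    ring
  rw [e1, e2]
  have hfin : G * ((1 - p) * RF p (u * v) A L) - G * R2F p u v A L
      = G * (p * (1 - u) * (1 - v) * (1 - p) *
      (2 * (1 - p * (u * v)) * (4 + (A + p * (A - L)))
        - (1 + u) * (1 + v) * (4 * (1 - p) - p * (4 * L + A ^ 2 - p * (A - L) ^ 2)))) := by
    rw [← merge_identity p u v A L]
    ring
  linarith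

variable {ι : Type*}

/-- The normalised determinant quantity of the truncated simplex with parameters `a`,
written with the product `p` as a separate argument. -/
noncomputable def PsiP (p : ℝ) (s : Finset ι) (a : ι → ℝ) : ℝ :=
  (∏ i ∈ s, (1 - p * a i ^ 2)) *
    QF p (∑ i ∈ s, (1 - a i) / (1 - p * a i ^ 2)) (∑ i ∈ s, (1 - a i) ^ 2 / (1 - p * a i ^ 2))

/-- The analytic input (the inequality called starW), as a hypothesis on the index type. -/
def StarHyp (ι : Type*) : Prop :=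
  ∀ (R : Finset ι) (a : ι → ℝ) (c p U0 U1 L : ℝ), 0 < c → c < 1 →
    (∀ k ∈ R, c ≤ a k ^ 2 ∧ 0 < a k ∧ a k ≤ 1) → p = c * ∏ k ∈ R, a k →
    U0 = ∑ k ∈ R, (1 - a k) / (1 - p * a k ^ 2) →
    U1 = ∑ k ∈ R, a k * (1 - a k) / (1 - p * a k ^ 2) →
    L = ∑ k ∈ R, (1 - a k) ^ 2 / (1 - p * a k ^ 2) →
    4 * (c - p) ≤ (1 - p * c) * (U0 + p * U1) + (1 + c) * p * (4 * L + U0 ^ 2 - p * U1 ^ 2)

theorem PsiP_split [DecidableEq ι] (p : ℝ) (s : Finset ι) (a : ι → ℝ) (i j : ι) (hi : i ∈ s)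
    (hj : j ∈ s.erase i) :
    PsiP p s a = ((1 - p * a i ^ 2) * ((1 - p * a j ^ 2) *
        ∏ k ∈ (s.erase i).erase j, (1 - p * a k ^ 2))) *
      QF p ((1 - a i) / (1 - p * a i ^ 2) + ((1 - a j) / (1 - p * a j ^ 2) +
          ∑ k ∈ (s.erase i).erase j, (1 - a k) / (1 - p * a k ^ 2)))
        ((1 - a i) ^ 2 / (1 - p * a i ^ 2) + ((1 - a j) ^ 2 / (1 - p * a j ^ 2) +
          ∑ k ∈ (s.erase i).erase j, (1 - a k) ^ 2 / (1 - p * a k ^ 2))) := by
  have h1 : (1 - p * a i ^ 2) * ∏ k ∈ s.erase i, (1 - p * a k ^ 2)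
      = ∏ k ∈ s, (1 - p * a k ^ 2) := Finset.mul_prod_erase s (fun k => 1 - p * a k ^ 2) hi
  have h2 : (1 - p * a j ^ 2) * ∏ k ∈ (s.erase i).erase j, (1 - p * a k ^ 2)
      = ∏ k ∈ s.erase i, (1 - p * a k ^ 2) :=
    Finset.mul_prod_erase (s.erase i) (fun k => 1 - p * a k ^ 2) hj
  have h3 : (1 - a i) / (1 - p * a i ^ 2) + ∑ k ∈ s.erase i, (1 - a k) / (1 - p * a k ^ 2)
      = ∑ k ∈ s, (1 - a k) / (1 - p * a k ^ 2) :=
    Finset.add_sum_erase s (fun k => (1 - a k) / (1 - p * a k ^ 2)) hi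
  have h4 : (1 - a j) / (1 - p * a j ^ 2)
        + ∑ k ∈ (s.erase i).erase j, (1 - a k) / (1 - p * a k ^ 2)
      = ∑ k ∈ s.erase i, (1 - a k) / (1 - p * a k ^ 2) :=
    Finset.add_sum_erase (s.erase i) (fun k => (1 - a k) / (1 - p * a k ^ 2)) hj
  have h5 : (1 - a i) ^ 2 / (1 - p * a i ^ 2)
        + ∑ k ∈ s.erase i, (1 - a k) ^ 2 / (1 - p * a k ^ 2)
      = ∑ k ∈ s, (1 - a k) ^ 2 / (1 - p * a k ^ 2) :=
    Finset.add_sum_erase s (fun k => (1 - a k) ^ 2 / (1 - p * a k ^ 2)) hi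
  have h6 : (1 - a j) ^ 2 / (1 - p * a j ^ 2)
        + ∑ k ∈ (s.erase i).erase j, (1 - a k) ^ 2 / (1 - p * a k ^ 2)
      = ∑ k ∈ s.erase i, (1 - a k) ^ 2 / (1 - p * a k ^ 2) :=
    Finset.add_sum_erase (s.erase i) (fun k => (1 - a k) ^ 2 / (1 - p * a k ^ 2)) hj
  unfold PsiP
  rw [h2, h4, h6, h1, h3, h5]

/-- Base case: only one parameter differs from `1`. -/
theorem PsiP_single [DecidableEq ι] (s : Finset ι) (a : ι → ℝ) (i : ι) (hi : i ∈ s)
    (hone : ∀ k ∈ s, k ≠ i → a k = 1) (hlt : a i < 1) (hpos : 0 < a i) :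
    PsiP (a i) s a = (1 - a i) ^ (s.card + 4) := by
  have hg : 1 - a i * a i ^ 2 ≠ 0 := by
    have h : a i * a i ^ 2 < 1 := by nlinarith [mul_pos hpos hpos]
    linarith
  have h1 : (1 - a i * a i ^ 2) * ∏ k ∈ s.erase i, (1 - a i * a k ^ 2)
      = ∏ k ∈ s, (1 - a i * a k ^ 2) := Finset.mul_prod_erase s (fun k => 1 - a i * a k ^ 2) hi
  have h3 : (1 - a i) / (1 - a i * a i ^ 2) + ∑ k ∈ s.erase i, (1 - a k) / (1 - a i * a k ^ 2)
      = ∑ k ∈ s, (1 - a k) / (1 - a i * a k ^ 2) :=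
    Finset.add_sum_erase s (fun k => (1 - a k) / (1 - a i * a k ^ 2)) hi
  have h5 : (1 - a i) ^ 2 / (1 - a i * a i ^ 2)
        + ∑ k ∈ s.erase i, (1 - a k) ^ 2 / (1 - a i * a k ^ 2)
      = ∑ k ∈ s, (1 - a k) ^ 2 / (1 - a i * a k ^ 2) :=
    Finset.add_sum_erase s (fun k => (1 - a k) ^ 2 / (1 - a i * a k ^ 2)) hi
  have e1 : ∏ k ∈ s.erase i, (1 - a i * a k ^ 2) = (1 - a i) ^ (s.card - 1) := by
    rw [← Finset.card_erase_of_mem hi, ← Finset.prod_const]
    apply Finset.prod_congr rfl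
    intro k hk
    rw [hone k (Finset.mem_of_mem_erase hk) (Finset.ne_of_mem_erase hk)]
    ring
  have e3 : ∑ k ∈ s.erase i, (1 - a k) / (1 - a i * a k ^ 2) = 0 := by
    apply Finset.sum_eq_zero
    intro k hk
    rw [hone k (Finset.mem_of_mem_erase hk) (Finset.ne_of_mem_erase hk)]
    simp
  have e5 : ∑ k ∈ s.erase i, (1 - a k) ^ 2 / (1 - a i * a k ^ 2) = 0 := by
    apply Finset.sum_eq_zero
    intro k hk
    rw [hone k (Finset.mem_of_mem_erase hk) (Finset.ne_of_mem_erase hk)]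
    simp
  have hcard : s.card = (s.card - 1) + 1 := by
    have : 0 < s.card := Finset.card_pos.mpr ⟨i, hi⟩
    omega
  unfold PsiP
  rw [← h1, ← h3, ← h5, e1, e3, e5]
  have hmain : (1 - a i * a i ^ 2) *
      QF (a i) ((1 - a i) / (1 - a i * a i ^ 2) + 0) ((1 - a i) ^ 2 / (1 - a i * a i ^ 2) + 0)
      = (1 - a i) ^ 5 := by
    rw [add_comm _ (0 : ℝ), add_comm _ (0 : ℝ), one_var (a i) (a i) 0 0 hg]
    unfold RF
    ring
  have hpow : (1 - a i) ^ (s.card + 4) = (1 - a i) ^ (s.card - 1) * (1 - a i) ^ 5 := by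
    rw [← pow_add]
    congr 1
    omega
  rw [hpow, ← hmain]
  ring

/-- One merging step: replacing `(a i, a j)` by `(a i * a j, 1)` strictly increases `PsiP`,
when all the other parameters are at least `max (a i) (a j)`. -/
theorem merge_step [DecidableEq ι] (hstar : StarHyp ι) (p : ℝ) (hp0 : 0 < p) (hp1 : p < 1)
    (s : Finset ι) (a a' : ι → ℝ) (i j : ι) (his : i ∈ s) (hj : j ∈ s.erase i)
    (ha : ∀ k ∈ s, 0 < a k ∧ a k ≤ 1) (hp : ∏ k ∈ s, a k = p)
    (hai1 : a i < 1) (haj1 : a j < 1)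
    (himin : ∀ k ∈ (s.erase i).erase j, a i ≤ a k)
    (hjmin : ∀ k ∈ (s.erase i).erase j, a j ≤ a k)
    (ha'i : a' i = a i * a j) (ha'j : a' j = 1)
    (ha'k : ∀ k ∈ (s.erase i).erase j, a' k = a k) :
    PsiP p s a < PsiP p s a' := by
  have hjs : j ∈ s := Finset.mem_of_mem_erase hj
  have hai0 : 0 < a i := (ha i his).1
  have haj0 : 0 < a j := (ha j hjs).1
  have hRs : ∀ k ∈ (s.erase i).erase j, k ∈ s := fun k hk =>
    Finset.mem_of_mem_erase (Finset.mem_of_mem_erase hk)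
  have hRa : ∀ k ∈ (s.erase i).erase j, a i * a j ≤ a k ^ 2 ∧ 0 < a k ∧ a k ≤ 1 := by
    intro k hk
    have h1 : a j ≤ a k := hjmin k hk
    have h2 : a i ≤ a k := himin k hk
    have hk0 := (ha k (hRs k hk)).1
    refine ⟨?_, hk0, (ha k (hRs k hk)).2⟩
    rw [pow_two]
    exact mul_le_mul h2 h1 haj0.le hk0.le
  have hprod : p = a i * a j * ∏ k ∈ (s.erase i).erase j, a k := by
    rw [← hp, ← Finset.mul_prod_erase s a his, ← Finset.mul_prod_erase (s.erase i) a hj]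
    ring
  have hgR : ∀ k ∈ (s.erase i).erase j, 0 < 1 - p * a k ^ 2 := by
    intro k hk
    obtain ⟨_, hk0, hk1⟩ := hRa k hk
    have h1 : a k ^ 2 ≤ 1 := by nlinarith
    have h2 : p * a k ^ 2 < 1 * 1 := mul_lt_mul hp1 h1 (by positivity) zero_le_one
    linarith
  have hGpos : 0 < ∏ k ∈ (s.erase i).erase j, (1 - p * a k ^ 2) := Finset.prod_pos hgR
  have hA0 : 0 ≤ ∑ k ∈ (s.erase i).erase j, (1 - a k) / (1 - p * a k ^ 2) :=
    Finset.sum_nonneg (fun k hk => div_nonneg (by linarith [(hRa k hk).2.2]) (hgR k hk).le)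
  have hLA : ∑ k ∈ (s.erase i).erase j, (1 - a k) ^ 2 / (1 - p * a k ^ 2)
      ≤ ∑ k ∈ (s.erase i).erase j, (1 - a k) / (1 - p * a k ^ 2) := by
    apply Finset.sum_le_sum
    intro k hk
    apply div_le_div_of_nonneg_right _ (hgR k hk).le
    have h1 := (hRa k hk).2.1
    have h2 := (hRa k hk).2.2
    nlinarith
  have hU1 : ∑ k ∈ (s.erase i).erase j, a k * (1 - a k) / (1 - p * a k ^ 2)
      = ∑ k ∈ (s.erase i).erase j, (1 - a k) / (1 - p * a k ^ 2)
        - ∑ k ∈ (s.erase i).erase j, (1 - a k) ^ 2 / (1 - p * a k ^ 2) := by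
    rw [← Finset.sum_sub_distrib]
    apply Finset.sum_congr rfl
    intro k _
    ring
  have hc1 : a i * a j < 1 := by nlinarith
  have hst := hstar ((s.erase i).erase j) a (a i * a j) p
    (∑ k ∈ (s.erase i).erase j, (1 - a k) / (1 - p * a k ^ 2))
    (∑ k ∈ (s.erase i).erase j, (1 - a k) / (1 - p * a k ^ 2)
        - ∑ k ∈ (s.erase i).erase j, (1 - a k) ^ 2 / (1 - p * a k ^ 2))
    (∑ k ∈ (s.erase i).erase j, (1 - a k) ^ 2 / (1 - p * a k ^ 2))
    (mul_pos hai0 haj0) hc1 hRa hprod rfl hU1.symm rfl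
  have hS' := PsiP_split p s a' i j his hj
  have hS := PsiP_split p s a i j his hj
  have eG : ∏ k ∈ (s.erase i).erase j, (1 - p * a' k ^ 2)
      = ∏ k ∈ (s.erase i).erase j, (1 - p * a k ^ 2) :=
    Finset.prod_congr rfl (fun k hk => by rw [ha'k k hk])
  have eA : ∑ k ∈ (s.erase i).erase j, (1 - a' k) / (1 - p * a' k ^ 2)
      = ∑ k ∈ (s.erase i).erase j, (1 - a k) / (1 - p * a k ^ 2) :=
    Finset.sum_congr rfl (fun k hk => by rw [ha'k k hk])
  have eL : ∑ k ∈ (s.erase i).erase j, (1 - a' k) ^ 2 / (1 - p * a' k ^ 2)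
      = ∑ k ∈ (s.erase i).erase j, (1 - a k) ^ 2 / (1 - p * a k ^ 2) :=
    Finset.sum_congr rfl (fun k hk => by rw [ha'k k hk])
  have z1 : (1 - (1 : ℝ)) / (1 - p * 1 ^ 2) = 0 := by simp
  have z2 : (1 - (1 : ℝ)) ^ 2 / (1 - p * 1 ^ 2) = 0 := by simp
  have z3 : 1 - p * (1 : ℝ) ^ 2 = 1 - p := by ring
  rw [eG, eA, eL, ha'i, ha'j, z1, z2, z3] at hS'
  have hm := merge_lt p (a i) (a j) (∏ k ∈ (s.erase i).erase j, (1 - p * a k ^ 2))
    (∑ k ∈ (s.erase i).erase j, (1 - a k) / (1 - p * a k ^ 2))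
    (∑ k ∈ (s.erase i).erase j, (1 - a k) ^ 2 / (1 - p * a k ^ 2))
    hGpos hp0 hp1 hai0 hai1 haj0 haj1 hA0 hLA hst
  rw [← hS, ← hS'] at hm
  exact hm

theorem exists_ne_one_of_prod_lt_one (s : Finset ι) (a : ι → ℝ) (h : ∏ i ∈ s, a i < 1) :
    ∃ i ∈ s, a i ≠ 1 := by
  by_contra hcon
  have hall : ∀ i ∈ s, a i = 1 := by
    intro i hi
    by_contra hne
    exact hcon ⟨i, hi, hne⟩
  have h1 : ∏ i ∈ s, a i = 1 := Finset.prod_eq_one hall
  linarith

theorem main_aux [DecidableEq ι] (hstar : StarHyp ι) (p : ℝ) (hp0 : 0 < p) (hp1 : p < 1)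
    (s : Finset ι) :
    ∀ (N : ℕ) (a : ι → ℝ), (∀ i ∈ s, 0 < a i ∧ a i ≤ 1) → ∏ i ∈ s, a i = p →
      (s.filter (fun i => a i ≠ 1)).card ≤ N →
      PsiP p s a ≤ (1 - p) ^ (s.card + 4) ∧
        (2 ≤ (s.filter (fun i => a i ≠ 1)).card → PsiP p s a < (1 - p) ^ (s.card + 4)) ∧
        ((s.filter (fun i => a i ≠ 1)).card ≤ 1 → PsiP p s a = (1 - p) ^ (s.card + 4)) := by
  intro N
  induction N with
  | zero =>
    intro a ha hp hcard
    exfalso
    obtain ⟨i, hi, hne⟩ := exists_ne_one_of_prod_lt_one s a (by rw [hp]; exact hp1)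
    have hmem : i ∈ s.filter (fun i => a i ≠ 1) := Finset.mem_filter.mpr ⟨hi, hne⟩
    have hpos : 0 < (s.filter (fun i => a i ≠ 1)).card := Finset.card_pos.mpr ⟨i, hmem⟩
    omega
  | succ N ih =>
    intro a ha hp hcard
    by_cases h2 : 2 ≤ (s.filter (fun i => a i ≠ 1)).card
    · obtain ⟨x, hx, y, hy, hxy⟩ := Finset.one_lt_card.mp (by omega :
        1 < (s.filter (fun i => a i ≠ 1)).card)
      have hxs : x ∈ s := (Finset.mem_filter.mp hx).1
      have hx1 : a x < 1 := lt_of_le_of_ne (ha x hxs).2 (Finset.mem_filter.mp hx).2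
      have hys : y ∈ s := (Finset.mem_filter.mp hy).1
      have hy1 : a y < 1 := lt_of_le_of_ne (ha y hys).2 (Finset.mem_filter.mp hy).2
      obtain ⟨i, his, himin⟩ := Finset.exists_min_image s a ⟨x, hxs⟩
      have hai1 : a i < 1 := lt_of_le_of_lt (himin x hxs) hx1
      have hex : ∃ z ∈ s.erase i, a z < 1 := by
        by_cases hxi : x = i
        · exact ⟨y, Finset.mem_erase.mpr ⟨fun h => hxy (hxi.trans h.symm), hys⟩, hy1⟩
        · exact ⟨x, Finset.mem_erase.mpr ⟨hxi, hxs⟩, hx1⟩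
      obtain ⟨z, hz, hz1⟩ := hex
      obtain ⟨j, hj, hjmin⟩ := Finset.exists_min_image (s.erase i) a ⟨z, hz⟩
      have haj1 : a j < 1 := lt_of_le_of_lt (hjmin z hz) hz1
      have hjs : j ∈ s := Finset.mem_of_mem_erase hj
      have hji : j ≠ i := Finset.ne_of_mem_erase hj
      have hai0 : 0 < a i := (ha i his).1
      have haj0 : 0 < a j := (ha j hjs).1
      obtain ⟨a', ha'def⟩ : ∃ a' : ι → ℝ,
          a' = Function.update (Function.update a i (a i * a j)) j 1 := ⟨_, rfl⟩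
      have ha'j : a' j = 1 := by rw [ha'def]; simp
      have ha'i : a' i = a i * a j := by
        rw [ha'def]; simp [hji.symm]
      have ha'k : ∀ k, k ≠ i → k ≠ j → a' k = a k := by
        intro k hki hkj
        rw [ha'def]; simp [hki, hkj]
      have hRmem : ∀ k ∈ (s.erase i).erase j, k ∈ s ∧ k ≠ i ∧ k ≠ j := by
        intro k hk
        have h1 := Finset.mem_of_mem_erase hk
        exact ⟨Finset.mem_of_mem_erase h1, Finset.ne_of_mem_erase h1, Finset.ne_of_mem_erase hk⟩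
      have ha' : ∀ k ∈ s, 0 < a' k ∧ a' k ≤ 1 := by
        intro k hk
        by_cases hkj : k = j
        · rw [hkj, ha'j]; exact ⟨one_pos, le_refl 1⟩
        · by_cases hki : k = i
          · rw [hki, ha'i]; exact ⟨mul_pos hai0 haj0, by nlinarith⟩
          · rw [ha'k k hki hkj]; exact ha k hk
      have hp' : ∏ k ∈ s, a' k = p := by
        have e : ∏ k ∈ (s.erase i).erase j, a' k = ∏ k ∈ (s.erase i).erase j, a k :=
          Finset.prod_congr rfl (fun k hk => ha'k k (hRmem k hk).2.1 (hRmem k hk).2.2)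
        rw [← Finset.mul_prod_erase s a' his, ← Finset.mul_prod_erase (s.erase i) a' hj,
          ha'i, ha'j, e, ← hp, ← Finset.mul_prod_erase s a his,
          ← Finset.mul_prod_erase (s.erase i) a hj]
        ring
      have hcard' : (s.filter (fun k => a' k ≠ 1)).card ≤ N := by
        have hsub : s.filter (fun k => a' k ≠ 1) ⊆ (s.filter (fun i => a i ≠ 1)).erase j := by
          intro k hk
          obtain ⟨hks, hk1⟩ := Finset.mem_filter.mp hk
          have hkj : k ≠ j := by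
            intro h
            rw [h] at hk1
            exact hk1 ha'j
          refine Finset.mem_erase.mpr ⟨hkj, Finset.mem_filter.mpr ⟨hks, ?_⟩⟩
          by_cases hki : k = i
          · rw [hki]; exact ne_of_lt hai1
          · rw [← ha'k k hki hkj]; exact hk1
        have hjF : j ∈ s.filter (fun i => a i ≠ 1) :=
          Finset.mem_filter.mpr ⟨hjs, ne_of_lt haj1⟩
        have h1 := Finset.card_le_card hsub
        rw [Finset.card_erase_of_mem hjF] at h1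
        omega
      have hIH := (ih a' ha' hp' hcard').1
      have hm := merge_step hstar p hp0 hp1 s a a' i j his hj ha hp hai1 haj1
        (fun k hk => himin k (hRmem k hk).1)
        (fun k hk => hjmin k (Finset.mem_of_mem_erase hk))
        ha'i ha'j (fun k hk => ha'k k (hRmem k hk).2.1 (hRmem k hk).2.2)
      exact ⟨le_of_lt (lt_of_lt_of_le hm hIH), fun _ => lt_of_lt_of_le hm hIH,
        fun h => absurd h (by omega)⟩
    · have heq : PsiP p s a = (1 - p) ^ (s.card + 4) := by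
        obtain ⟨i, hi, hne⟩ := exists_ne_one_of_prod_lt_one s a (by rw [hp]; exact hp1)
        have hmem : i ∈ s.filter (fun i => a i ≠ 1) := Finset.mem_filter.mpr ⟨hi, hne⟩
        have hone : ∀ k ∈ s, k ≠ i → a k = 1 := by
          intro k hk hki
          by_contra hk1
          have hkmem : k ∈ s.filter (fun i => a i ≠ 1) := Finset.mem_filter.mpr ⟨hk, hk1⟩
          have : 1 < (s.filter (fun i => a i ≠ 1)).card :=
            Finset.one_lt_card.mpr ⟨k, hkmem, i, hmem, hki⟩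
          omega
        have hpi : p = a i := by
          rw [← hp]
          exact Finset.prod_eq_single_of_mem i hi (fun k hk hki => hone k hk hki)
        have hlt : a i < 1 := lt_of_le_of_ne (ha i hi).2 hne
        rw [hpi]
        exact PsiP_single s a i hi hone hlt (ha i hi).1
      exact ⟨le_of_eq heq, fun h => absurd h h2, fun _ => heq⟩

/-- The truncated-simplex inequality. -/
theorem trunc_le (hstar : StarHyp ι) (s : Finset ι) (a : ι → ℝ)
    (ha : ∀ i ∈ s, 0 < a i ∧ a i ≤ 1) (hp1 : ∏ i ∈ s, a i < 1) :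
    PsiP (∏ i ∈ s, a i) s a ≤ (1 - ∏ i ∈ s, a i) ^ (s.card + 4) := by
  classical
  have hp0 : 0 < ∏ i ∈ s, a i := Finset.prod_pos (fun i hi => (ha i hi).1)
  exact (main_aux hstar _ hp0 hp1 s _ a ha rfl (le_refl _)).1

/-- Strictness: two parameters below `1` give strict inequality. -/
theorem trunc_lt (hstar : StarHyp ι) (s : Finset ι) (a : ι → ℝ)
    (ha : ∀ i ∈ s, 0 < a i ∧ a i ≤ 1) (hp1 : ∏ i ∈ s, a i < 1)
    (i j : ι) (hi : i ∈ s) (hj : j ∈ s) (hij : i ≠ j) (hai : a i ≠ 1) (haj : a j ≠ 1) :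
    PsiP (∏ i ∈ s, a i) s a < (1 - ∏ i ∈ s, a i) ^ (s.card + 4) := by
  classical
  have hp0 : 0 < ∏ i ∈ s, a i := Finset.prod_pos (fun i hi => (ha i hi).1)
  have hcard : 2 ≤ (s.filter (fun i => a i ≠ 1)).card := by
    have h : 1 < (s.filter (fun i => a i ≠ 1)).card :=
      Finset.one_lt_card.mpr ⟨i, Finset.mem_filter.mpr ⟨hi, hai⟩, j,
        Finset.mem_filter.mpr ⟨hj, haj⟩, hij⟩
    omega
  exact (main_aux hstar _ hp0 hp1 s _ a ha rfl (le_refl _)).2.1 hcard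

/-- Equality: at most one parameter differs from `1`. -/
theorem trunc_eq (s : Finset ι) (a : ι → ℝ)
    (ha : ∀ i ∈ s, 0 < a i ∧ a i ≤ 1) (hp1 : ∏ i ∈ s, a i < 1)
    (i : ι) (hi : i ∈ s) (hone : ∀ k ∈ s, k ≠ i → a k = 1) :
    PsiP (∏ i ∈ s, a i) s a = (1 - ∏ i ∈ s, a i) ^ (s.card + 4) := by
  classical
  have hpi : ∏ k ∈ s, a k = a i :=
    Finset.prod_eq_single_of_mem i hi (fun k hk hki => hone k hk hki)
  rw [hpi]
  rw [hpi] at hp1
  exact PsiP_single s a i hi hone hp1 (ha i hi).1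

/-- The equality case. -/
theorem trunc_eq_iff (hstar : StarHyp ι) (s : Finset ι) (a : ι → ℝ)
    (ha : ∀ i ∈ s, 0 < a i ∧ a i ≤ 1) (hp1 : ∏ i ∈ s, a i < 1) :
    PsiP (∏ i ∈ s, a i) s a = (1 - ∏ i ∈ s, a i) ^ (s.card + 4)
      ↔ ∃ i ∈ s, ∀ k ∈ s, k ≠ i → a k = 1 := by
  constructor
  · intro heq
    obtain ⟨i, hi, hne⟩ := exists_ne_one_of_prod_lt_one s a hp1
    refine ⟨i, hi, ?_⟩
    intro k hk hki
    by_contra hk1
    have hlt := trunc_lt hstar s a ha hp1 k i hk hi hki hk1 hne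
    linarith
  · rintro ⟨i, hi, hone⟩
    exact trunc_eq s a ha hp1 i hi hone

end Vale.Agent.Helper26.WnMerge
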